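import Vale.Agent.P054.L2.Defs

/-! Block L2, leaf PIECES (pure combinatorics).
Proof. `a = #A`, `b = #B`. Heavy pieces: `a ≤ 4 V x` where `x` = size of the piece. The light pieces
of `A'` contain together at most `V * a/(4V) = a/4` points, so the heavy ones contain `≥ a/4`;
same for `B'`. A heavy piece has `x ≥ a/(4V) ≥ 2` points. For two heavy pieces
`psi x y = x y min(x,y) ≥ x y min(a,b)/(4V)`. Summing: `≥ (a/4)(b/4) min(a,b)/(4V)`. -/

set_option linter.all false
set_option autoImplicit false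

namespace Vale.Agent.P054.L2

open Finset

/-- the heavy pieces contain a quarter of the points -/
theorem heavy_sum {α κ : Type*} [DecidableEq κ] (A A' : Finset α) (c : α → κ)
    (hA2 : A.card ≤ 2 * A'.card) (V : ℕ) (hV : 1 ≤ V) (hcA : (A'.image c).card ≤ V) :
    A.card ≤ 4 * ∑ k ∈ (A'.image c).filter
      (fun k => A.card ≤ 4 * V * (A'.filter (fun a => c a = k)).card),
        (A'.filter (fun a => c a = k)).card := by
  set x : κ → ℕ := fun k => (A'.filter (fun a => c a = k)).card with hx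
  set P : κ → Prop := fun k => A.card ≤ 4 * V * x k with hP
  have h1 : ∑ k ∈ A'.image c, x k = A'.card :=
    (Finset.card_eq_sum_card_image c A').symm
  have h2 : (∑ k ∈ (A'.image c).filter P, x k) +
      ∑ k ∈ (A'.image c).filter (fun k => ¬ P k), x k = ∑ k ∈ A'.image c, x k :=
    Finset.sum_filter_add_sum_filter_not _ _ _
  have h3 : 4 * V * ∑ k ∈ (A'.image c).filter (fun k => ¬ P k), x k ≤ V * A.card := by
    rw [Finset.mul_sum]
    calc ∑ k ∈ (A'.image c).filter (fun k => ¬ P k), 4 * V * x k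
        ≤ ∑ k ∈ (A'.image c).filter (fun k => ¬ P k), A.card :=
          Finset.sum_le_sum fun k hk => by
            have := (Finset.mem_filter.1 hk).2
            exact (not_le.1 this).le
      _ = ((A'.image c).filter (fun k => ¬ P k)).card * A.card := by
          rw [Finset.sum_const, smul_eq_mul]
      _ ≤ V * A.card := Nat.mul_le_mul_right _ ((Finset.card_filter_le _ _).trans hcA)
  have h4 : 4 * ∑ k ∈ (A'.image c).filter (fun k => ¬ P k), x k ≤ A.card := by
    have h5 : V * (4 * ∑ k ∈ (A'.image c).filter (fun k => ¬ P k), x k) ≤ V * A.card := by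
      calc V * (4 * ∑ k ∈ (A'.image c).filter (fun k => ¬ P k), x k)
          = 4 * V * ∑ k ∈ (A'.image c).filter (fun k => ¬ P k), x k := by ring
        _ ≤ _ := h3
    exact Nat.le_of_mul_le_mul_left h5 hV
  change A.card ≤ 4 * ∑ k ∈ (A'.image c).filter P, x k
  omega

theorem psi_pieces {α β κ κ' : Type*} [DecidableEq κ] [DecidableEq κ']
    (A A' : Finset α) (B B' : Finset β) (c : α → κ) (c' : β → κ')
    (hA' : A' ⊆ A) (hB' : B' ⊆ B) (hA2 : A.card ≤ 2 * A'.card) (hB2 : B.card ≤ 2 * B'.card)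
    (V : ℕ) (hV : 1 ≤ V) (hcA : (A'.image c).card ≤ V) (hcB : (B'.image c').card ≤ V)
    (hA : 8 * V ≤ A.card) (hB : 8 * V ≤ B.card) :
    psi A.card B.card ≤ 64 * V * ∑ k ∈ A'.image c, ∑ l ∈ B'.image c',
      psi (A'.filter (fun a => c a = k)).card (B'.filter (fun b => c' b = l)).card := by
  set x : κ → ℕ := fun k => (A'.filter (fun a => c a = k)).card with hx
  set y : κ' → ℕ := fun l => (B'.filter (fun b => c' b = l)).card with hy
  set a := A.card with ha
  set b := B.card with hb
  have hXA := heavy_sum A A' c hA2 V hV hcA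
  have hXB := heavy_sum B B' c' hB2 V hV hcB
  set H := (A'.image c).filter (fun k => a ≤ 4 * V * x k) with hH
  set H' := (B'.image c').filter (fun l => b ≤ 4 * V * y l) with hH'
  have hsub : ∑ k ∈ H, ∑ l ∈ H', psi (x k) (y l) ≤
      ∑ k ∈ A'.image c, ∑ l ∈ B'.image c', psi (x k) (y l) := by
    refine le_trans (Finset.sum_le_sum fun k _ =>
      Finset.sum_le_sum_of_subset (Finset.filter_subset _ _)) ?_
    exact Finset.sum_le_sum_of_subset (Finset.filter_subset _ _)
  have hpt : ∀ k ∈ H, ∀ l ∈ H', x k * y l * min a b ≤ 4 * V * psi (x k) (y l) := by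
    intro k hk l hl
    have h1 : a ≤ 4 * V * x k := (Finset.mem_filter.1 hk).2
    have h2 : b ≤ 4 * V * y l := (Finset.mem_filter.1 hl).2
    have h3 : 2 ≤ x k := by
      by_contra h
      have h4 : x k ≤ 1 := by omega
      have h5 : 4 * V * x k ≤ 4 * V * 1 := Nat.mul_le_mul_left _ h4
      omega
    have h4 : 2 ≤ y l := by
      by_contra h
      have h4 : y l ≤ 1 := by omega
      have h5 : 4 * V * y l ≤ 4 * V * 1 := Nat.mul_le_mul_left _ h4
      omega
    have h5 : min a b ≤ 4 * V * min (x k) (y l) := by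
      rcases le_total (x k) (y l) with h | h
      · rw [min_eq_left h]
        exact (min_le_left _ _).trans h1
      · rw [min_eq_right h]
        exact (min_le_right _ _).trans h2
    unfold psi
    rw [if_pos ⟨h3, h4⟩]
    calc x k * y l * min a b ≤ x k * y l * (4 * V * min (x k) (y l)) :=
          Nat.mul_le_mul_left _ h5
      _ = 4 * V * (x k * y l * min (x k) (y l)) := by ring
  have hsum : (∑ k ∈ H, x k) * (∑ l ∈ H', y l) * min a b ≤
      4 * V * ∑ k ∈ H, ∑ l ∈ H', psi (x k) (y l) := by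
    rw [Finset.sum_mul_sum, Finset.sum_mul, Finset.mul_sum]
    refine Finset.sum_le_sum fun k hk => ?_
    rw [Finset.sum_mul, Finset.mul_sum]
    exact Finset.sum_le_sum fun l hl => hpt k hk l hl
  have hA2' : a * b ≤ 16 * ((∑ k ∈ H, x k) * (∑ l ∈ H', y l)) := by
    calc a * b ≤ (4 * ∑ k ∈ H, x k) * (4 * ∑ l ∈ H', y l) := Nat.mul_le_mul hXA hXB
      _ = _ := by ring
  have hpsi : psi a b ≤ a * b * min a b := by
    unfold psi
    split_ifs
    · exact le_rfl
    · exact Nat.zero_le _
  calc psi a b ≤ a * b * min a b := hpsi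
    _ ≤ 16 * ((∑ k ∈ H, x k) * (∑ l ∈ H', y l)) * min a b := Nat.mul_le_mul_right _ hA2'
    _ = 16 * ((∑ k ∈ H, x k) * (∑ l ∈ H', y l) * min a b) := by ring
    _ ≤ 16 * (4 * V * ∑ k ∈ H, ∑ l ∈ H', psi (x k) (y l)) := Nat.mul_le_mul_left _ hsum
    _ ≤ 16 * (4 * V * ∑ k ∈ A'.image c, ∑ l ∈ B'.image c', psi (x k) (y l)) :=
        Nat.mul_le_mul_left _ (Nat.mul_le_mul_left _ hsub)
    _ = 64 * V * ∑ k ∈ A'.image c, ∑ l ∈ B'.image c', psi (x k) (y l) := by ring

/-- `psi` is monotone -/
theorem psi_mono {x x' y y' : ℕ} (hx : x ≤ x') (hy : y ≤ y') : psi x y ≤ psi x' y' := by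
  unfold psi
  split_ifs with h1 h2
  · exact Nat.mul_le_mul (Nat.mul_le_mul hx hy) (min_le_min hx hy)
  · exact absurd ⟨h1.1.trans hx, h1.2.trans hy⟩ h2
  · exact Nat.zero_le _
  · exact Nat.zero_le _

/-- losing a constant factor in one argument; `x` is replaced by `x'` with `x ≤ M x'` -/
theorem psi_scale {x x' y M : ℕ} (hM : 1 ≤ M) (hx : x ≤ M * x') (hx' : 2 ≤ x') :
    psi x y ≤ M ^ 2 * psi x' y := by
  unfold psi
  split_ifs with h1 h2
  · have h3 : min x y ≤ M * min x' y := by
      rcases le_total x' y with h | h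
      · rw [min_eq_left h]
        exact (min_le_left _ _).trans hx
      · rw [min_eq_right h]
        exact (min_le_right _ _).trans (Nat.le_mul_of_pos_left _ hM)
    calc x * y * min x y ≤ M * x' * y * (M * min x' y) :=
          Nat.mul_le_mul (Nat.mul_le_mul_right _ hx) h3
      _ = M ^ 2 * (x' * y * min x' y) := by ring
  · exact absurd ⟨hx', h1.2⟩ h2
  · exact Nat.zero_le _
  · exact Nat.zero_le _

theorem psi_comm (x y : ℕ) : psi x y = psi y x := by
  unfold psi
  rw [min_comm x y, mul_comm x y]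
  split_ifs with h1 h2 h3
  · rfl
  · exact absurd ⟨h1.2, h1.1⟩ h2
  · exact absurd ⟨h3.2, h3.1⟩ h1
  · rfl

end Vale.Agent.P054.L2
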