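import Mathlib

/-! Block L2, leaf SAMPLING.
Proof: average over a random subset `S` of `U` of density `p = 4/k` (for `4 ≤ k`; for `k < 4` take
`S = U`).  `1[n ≥ 2] ≥ 1 - 4 (1/4)^n` and `E (1/4)^{#(A ∩ S)} = (1 - 3/k)^{#A} ≤ exp (-3)`. -/

set_option linter.all false
set_option autoImplicit false

namespace Vale.Agent.P054.L2

open Finset

open scoped Classical in
/-- generating function of the size of the intersection with a random subset -/
private lemma samp_gen {Ω : Type} (U A : Finset Ω) (hA : A ⊆ U) (p x : ℝ) :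
    ∑ S ∈ U.powerset, p ^ S.card * (1 - p) ^ (U \ S).card * x ^ (A ∩ S).card
      = (1 - p + p * x) ^ A.card := by
  have h := Finset.prod_add (fun i => p * (if i ∈ A then x else 1)) (fun _ : Ω => (1 - p)) U
  have h1 : ∏ i ∈ U, (p * (if i ∈ A then x else 1) + (1 - p)) = (1 - p + p * x) ^ A.card := by
    have : ∀ i ∈ U, (p * (if i ∈ A then x else 1) + (1 - p))
        = if i ∈ A then (1 - p + p * x) else 1 := by
      intro i _
      split_ifs <;> ring
    rw [Finset.prod_congr rfl this, Finset.prod_ite, Finset.prod_const, Finset.prod_const_one,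
      mul_one]
    congr 1
    congr 1
    ext i
    simp only [Finset.mem_filter]
    exact ⟨fun h => h.2, fun h => ⟨hA h, h⟩⟩
  rw [h1] at h
  rw [h]
  refine Finset.sum_congr rfl fun S hS => ?_
  rw [Finset.prod_mul_distrib, Finset.prod_const, Finset.prod_const, Finset.prod_ite,
    Finset.prod_const, Finset.prod_const_one, mul_one]
  have : (S.filter (fun i => i ∈ A)) = A ∩ S := by
    ext i
    simp only [Finset.mem_filter, Finset.mem_inter]
    tauto
  rw [this]
  ring

open scoped Classical in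
/-- If every set `S` catches two elements of at most `b #S` of the sets `A g`, then at most
`24 b #Ω / k` of the sets have `k` elements. -/
theorem sampling {Ω ι : Type} (U : Finset Ω) (G : Finset ι) (A : ι → Finset Ω)
    (hAU : ∀ g ∈ G, A g ⊆ U) (k : ℕ) (hk : 2 ≤ k) (hA : ∀ g ∈ G, k ≤ (A g).card) (b : ℕ)
    (hb : ∀ S : Finset Ω, (G.filter (fun g => 2 ≤ (A g ∩ S).card)).card ≤ b * S.card) :
    G.card * k ≤ 24 * b * U.card := by
  by_cases hk4 : k < 4
  · have h := hb U
    have h1 : G.filter (fun g => 2 ≤ (A g ∩ U).card) = G := by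
      apply Finset.filter_true_of_mem
      intro g hg
      rw [Finset.inter_eq_left.2 (hAU g hg)]
      exact hk.trans (hA g hg)
    rw [h1] at h
    calc G.card * k ≤ (b * U.card) * 24 := Nat.mul_le_mul h (by omega)
      _ = 24 * b * U.card := by ring
  push Not at hk4
  set p : ℝ := 4 / k with hp
  have hk0 : (0 : ℝ) < k := by positivity
  have hk4' : (4 : ℝ) ≤ k := by exact_mod_cast hk4
  have hp0 : 0 ≤ p := by positivity
  have hp1 : 0 ≤ 1 - p := by
    rw [hp, sub_nonneg, div_le_one hk0]
    exact hk4'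
  set μ : Finset Ω → ℝ := fun S => p ^ S.card * (1 - p) ^ (U \ S).card with hμ
  have hμ0 : ∀ S, 0 ≤ μ S := fun S => by
    rw [hμ]
    positivity
  -- total mass and mean size
  have htot : ∑ S ∈ U.powerset, μ S = 1 := by
    have := samp_gen U ∅ (Finset.empty_subset _) p 1
    simpa [hμ] using this
  have hmem : ∀ i ∈ U, ∑ S ∈ U.powerset, μ S * (if i ∈ S then (1 : ℝ) else 0) = p := by
    intro i hi
    have h := samp_gen U {i} (Finset.singleton_subset_iff.2 hi) p 0
    have h2 : ∀ S ∈ U.powerset, μ S * (if i ∈ S then (1 : ℝ) else 0)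
        = μ S - p ^ S.card * (1 - p) ^ (U \ S).card * 0 ^ (({i} : Finset Ω) ∩ S).card := by
      intro S _
      by_cases hiS : i ∈ S
      · have : ({i} : Finset Ω) ∩ S = {i} := Finset.inter_eq_left.2 (Finset.singleton_subset_iff.2 hiS)
        simp [hiS, this, hμ]
      · have : ({i} : Finset Ω) ∩ S = ∅ := by
          rw [Finset.singleton_inter_of_notMem hiS]
        simp [hiS, this, hμ]
    rw [Finset.sum_congr rfl h2, Finset.sum_sub_distrib, htot, h]
    simp
  have hmean : ∑ S ∈ U.powerset, μ S * (S.card : ℝ) = p * U.card := by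
    have h1 : ∀ S ∈ U.powerset, μ S * (S.card : ℝ)
        = ∑ i ∈ U, μ S * (if i ∈ S then (1 : ℝ) else 0) := by
      intro S hS
      rw [← Finset.mul_sum]
      congr 1
      rw [Finset.sum_ite_mem, Finset.inter_eq_right.2 (Finset.mem_powerset.1 hS)]
      simp
    rw [Finset.sum_congr rfl h1, Finset.sum_comm, Finset.sum_congr rfl hmem]
    simp [mul_comm]
  -- upper bound
  have hup : ∑ S ∈ U.powerset, μ S * ((G.filter (fun g => 2 ≤ (A g ∩ S).card)).card : ℝ)
      ≤ b * (p * U.card) := by
    rw [← hmean, Finset.mul_sum]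
    refine Finset.sum_le_sum fun S _ => ?_
    have := hb S
    have h2 : ((G.filter (fun g => 2 ≤ (A g ∩ S).card)).card : ℝ) ≤ b * S.card := by
      exact_mod_cast this
    calc μ S * ((G.filter (fun g => 2 ≤ (A g ∩ S).card)).card : ℝ) ≤ μ S * (b * S.card) :=
          mul_le_mul_of_nonneg_left h2 (hμ0 S)
      _ = b * (μ S * S.card) := by ring
  -- lower bound
  have hexp : (1 - 3 / (k : ℝ)) ^ k ≤ 1 / 16 := by
    have h1 : (1 - 3 / (k : ℝ)) ≤ Real.exp (-(3 / k)) := by
      have := Real.add_one_le_exp (-(3 / (k : ℝ)))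
      linarith
    have h0 : 0 ≤ 1 - 3 / (k : ℝ) := by
      rw [sub_nonneg, div_le_one hk0]
      linarith
    calc (1 - 3 / (k : ℝ)) ^ k ≤ (Real.exp (-(3 / k))) ^ k := pow_le_pow_left₀ h0 h1 k
      _ = Real.exp (-3) := by
          rw [← Real.exp_nat_mul]
          congr 1
          field_simp
      _ ≤ 1 / 16 := by
          rw [Real.exp_neg, one_div]
          apply inv_anti₀ (by norm_num)
          have h3 : Real.exp 3 = Real.exp 1 ^ 3 := by
            rw [← Real.exp_nat_mul]
            norm_num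
          rw [h3]
          have := Real.exp_one_gt_d9
          calc (16 : ℝ) ≤ 2.7 ^ 3 := by norm_num
            _ ≤ Real.exp 1 ^ 3 := pow_le_pow_left₀ (by norm_num) (by linarith) 3
  have hlow1 : ∀ g ∈ G, (3 / 4 : ℝ) ≤
      ∑ S ∈ U.powerset, μ S * (if 2 ≤ (A g ∩ S).card then (1 : ℝ) else 0) := by
    intro g hg
    have h1 := samp_gen U (A g) (hAU g hg) p (1 / 4)
    have h2 : (1 - p + p * (1 / 4)) ^ (A g).card ≤ 1 / 16 := by
      have h3 : 1 - p + p * (1 / 4) = 1 - 3 / (k : ℝ) := by
        rw [hp]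
        field_simp
        ring
      rw [h3]
      have h0 : 0 ≤ 1 - 3 / (k : ℝ) := by
        rw [sub_nonneg, div_le_one hk0]
        linarith
      have h4 : 1 - 3 / (k : ℝ) ≤ 1 := by
        have : 0 ≤ 3 / (k : ℝ) := by positivity
        linarith
      exact (pow_le_pow_of_le_one h0 h4 (hA g hg)).trans hexp
    calc (3 / 4 : ℝ) ≤ 1 - 4 * (1 - p + p * (1 / 4)) ^ (A g).card := by linarith
      _ = ∑ S ∈ U.powerset, (μ S - 4 * (μ S * (1 / 4) ^ (A g ∩ S).card)) := by
          rw [Finset.sum_sub_distrib, htot, ← Finset.mul_sum, h1]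
      _ ≤ ∑ S ∈ U.powerset, μ S * (if 2 ≤ (A g ∩ S).card then (1 : ℝ) else 0) := by
          refine Finset.sum_le_sum fun S _ => ?_
          have hm := hμ0 S
          have hpw : (0 : ℝ) ≤ (1 / 4) ^ (A g ∩ S).card := by positivity
          split_ifs with h2
          · nlinarith [mul_nonneg hm hpw]
          · have h5 : (A g ∩ S).card ≤ 1 := by omega
            have h6 : (1 / 4 : ℝ) ≤ (1 / 4) ^ (A g ∩ S).card := by
              calc (1 / 4 : ℝ) = (1 / 4) ^ 1 := by norm_num
                _ ≤ (1 / 4) ^ (A g ∩ S).card :=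
                    pow_le_pow_of_le_one (by norm_num) (by norm_num) h5
            nlinarith [mul_nonneg hm (sub_nonneg.2 h6)]
  have hlow : (3 / 4 : ℝ) * G.card ≤
      ∑ S ∈ U.powerset, μ S * ((G.filter (fun g => 2 ≤ (A g ∩ S).card)).card : ℝ) := by
    have h1 : ∀ S ∈ U.powerset, μ S * ((G.filter (fun g => 2 ≤ (A g ∩ S).card)).card : ℝ)
        = ∑ g ∈ G, μ S * (if 2 ≤ (A g ∩ S).card then (1 : ℝ) else 0) := by
      intro S _
      rw [← Finset.mul_sum]
      congr 1
      rw [Finset.sum_boole]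
    rw [Finset.sum_congr rfl h1, Finset.sum_comm]
    calc (3 / 4 : ℝ) * G.card = ∑ g ∈ G, (3 / 4 : ℝ) := by
          rw [Finset.sum_const, nsmul_eq_mul]
          ring
      _ ≤ _ := Finset.sum_le_sum hlow1
  have hfin : (3 / 4 : ℝ) * G.card ≤ b * (p * U.card) := hlow.trans hup
  have hfin2 : (G.card : ℝ) * k ≤ 24 * b * U.card := by
    have h1 : b * (p * U.card) * k = 4 * b * U.card := by
      rw [hp]
      field_simp
    have h2 := mul_le_mul_of_nonneg_right hfin hk0.le
    have h3 : (0 : ℝ) ≤ b * U.card := by positivity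
    nlinarith
  exact_mod_cast hfin2

end Vale.Agent.P054.L2
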