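import Vale.Agent.P054.L2.Defs
import Vale.Agent.P054.L2.Sampling
import Vale.Agent.P054.L2.Pieces

/-! Block L2, leaf BASE. `g` with few points on one of the two lines.
Proof. By symmetry (`(T 0)` small or `(T 1)` small; two halves of `G`) let `#(T 0 g) < K`, both
`≥ 2` (otherwise `psi = 0`). `psi ≤ K^2 * #(T 1 g)`. For `j ≥ 1` let
`G_j = {g : 2^j ≤ #(T 1 g) < 2^(j+1)}`; `sampling` with `U = X 2 ×ˢ X 3`,
`A g = (T 1 g).image (t ↦ (lpt (p 2 g) (v 2 g) t, lpt (p 3 g) (v 3 g) t))` (injective because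
`v ≠ 0`), `k = 2^j`, `b = B * #(X 0) * #(X 1)` (from `D.hJ` with `S₁ = X 0 ×ˢ X 1`) gives
`#G_j 2^j ≤ 24 B N`. Only `j ≤ log2 (#X 2)` occur, so
`∑ #(T 1 g) ≤ ∑_j 2^(j+1) #G_j ≤ 48 B N (1 + log2 N) ≤ C_ε N^(1+ε)`. -/

set_option linter.all false
set_option autoImplicit false

namespace Vale.Agent.P054.L2

open Finset

theorem base (B : ℕ) (ε : ℝ) (hε : 0 < ε) (K : ℕ) :
    ∃ C' : ℝ, 0 ≤ C' ∧ ∀ (ι : Type) (D : L2D B ι),
      (∀ g ∈ D.G, (D.T 0 g).card < K ∨ (D.T 1 g).card < K) → D.wt ≤ C' * (D.N : ℝ) ^ (1 + ε) := by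
  sorry

end Vale.Agent.P054.L2
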