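import Vale.Agent.P054.L2.Defs
import Vale.Agent.P054.W.Flat

/-! Block L2, leaf CROSSING: a line enters at most `2D+1` cells. -/

set_option linter.all false
set_option autoImplicit false

namespace Vale.Agent.P054.L2

open Finset MvPolynomial

private theorem cr930_lin (f : ℕ) (y₀ w : Fin f → ℝ) (i : Fin f) :
    ((C (y₀ i) + X 0 * C (w i) : MvPolynomial (Fin 1) ℝ)).totalDegree ≤ 1 := by
  refine (totalDegree_add _ _).trans ?_
  rw [totalDegree_C]
  refine max_le (Nat.zero_le _) ?_
  refine (totalDegree_mul _ _).trans ?_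
  rw [totalDegree_C]
  have := totalDegree_X (R := ℝ) (0 : Fin 1)
  omega

open scoped Classical in
theorem crossing {f f' : ℕ} {J J' : Type} [Fintype J] [Fintype J']
    (q : J → MvPolynomial (Fin f) ℝ) (q' : J' → MvPolynomial (Fin f') ℝ) (D : ℕ)
    (hD : ∑ j, (q j).totalDegree + ∑ j, (q' j).totalDegree ≤ D)
    (y₀ w : Fin f → ℝ) (y₀' w' : Fin f' → ℝ) (T : Finset ℝ)
    (hT : ∀ t ∈ T, (∀ j, eval (y₀ + t • w) (q j) ≠ 0) ∧ (∀ j, eval (y₀' + t • w') (q' j) ≠ 0)) :
    (T.image (fun t : ℝ => ((fun j => decide (0 < eval (y₀ + t • w) (q j)) : J → Bool),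
      (fun j => decide (0 < eval (y₀' + t • w') (q' j)) : J' → Bool)))).card ≤ 2 * D + 1 := by
  let F : J ⊕ J' → MvPolynomial (Fin (f + f')) ℝ :=
    Sum.elim (fun j => rename (Fin.castAdd f') (q j)) (fun j => rename (Fin.natAdd f) (q' j))
  let L : Fin (f + f') → MvPolynomial (Fin 1) ℝ :=
    Fin.addCases (fun i => C (y₀ i) + X 0 * C (w i)) (fun i => C (y₀' i) + X 0 * C (w' i))
  have hL : ∀ i, (L i).totalDegree ≤ 1 := by
    intro i
    refine Fin.addCases (fun i => ?_) (fun i => ?_) i
    · simp only [L, Fin.addCases_left]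
      exact cr930_lin f y₀ w i
    · simp only [L, Fin.addCases_right]
      exact cr930_lin f' y₀' w' i
  have hFD : ∑ j, (F j).totalDegree ≤ D := by
    rw [Fintype.sum_sum_type]
    refine le_trans (add_le_add (Finset.sum_le_sum fun j _ => ?_)
      (Finset.sum_le_sum fun j _ => ?_)) hD
    · exact totalDegree_rename_le _ _
    · exact totalDegree_rename_le _ _
  let e : (J → Bool) × (J' → Bool) → (J ⊕ J' → Bool) := fun p => Sum.elim p.1 p.2
  have he : Function.Injective e := by
    intro p p' h
    refine Prod.ext (funext fun j => ?_) (funext fun j => ?_)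
    · exact congrFun h (Sum.inl j)
    · exact congrFun h (Sum.inr j)
  let g : ℝ → (J → Bool) × (J' → Bool) := fun t : ℝ =>
    ((fun j => decide (0 < eval (y₀ + t • w) (q j)) : J → Bool),
      (fun j => decide (0 < eval (y₀' + t • w') (q' j)) : J' → Bool))
  have hev : ∀ t : ℝ, (∀ j, eval (fun i => eval (fun _ : Fin 1 => t) (L i)) (F (Sum.inl j)) =
      eval (y₀ + t • w) (q j)) ∧ (∀ j, eval (fun i => eval (fun _ : Fin 1 => t) (L i))
        (F (Sum.inr j)) = eval (y₀' + t • w') (q' j)) := by
    intro t
    constructor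
    · intro j
      simp only [F, Sum.elim_inl, eval_rename]
      congr 1
      congr 1
      funext i
      simp [L]
    · intro j
      simp only [F, Sum.elim_inr, eval_rename]
      congr 1
      congr 1
      funext i
      simp [L]
  have hmain := Vale.Agent.P054.W.card_cells_param_le F L 1 hL D hFD ((T.image g).image e) (by
    intro c hc
    rw [Finset.mem_image] at hc
    obtain ⟨p, hp, rfl⟩ := hc
    rw [Finset.mem_image] at hp
    obtain ⟨t, ht, rfl⟩ := hp
    refine ⟨fun _ => t, ?_⟩
    intro j
    obtain ⟨h1, h2⟩ := hev t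
    rcases j with j | j
    · rw [h1 j]
      refine ⟨(hT t ht).1 j, ?_⟩
      simp [e, g]
    · rw [h2 j]
      refine ⟨(hT t ht).2 j, ?_⟩
      simp [e, g])
  rw [Finset.card_image_of_injective _ he] at hmain
  have h3 : (2 * (1 * D) + 1) ^ 1 = 2 * D + 1 := by ring
  rw [h3] at hmain
  exact hmain

/-- a polynomial that does not vanish identically on a line has few zeros on it -/
theorem few_zeros {f : ℕ} (q : MvPolynomial (Fin f) ℝ) (d : ℕ) (hd : q.totalDegree ≤ d)
    (y₀ w : Fin f → ℝ) (T : Finset ℝ) (hT : ∀ t ∈ T, eval (y₀ + t • w) q = 0)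
    (hc : d < T.card) : ∀ t : ℝ, eval (y₀ + t • w) q = 0 := by
  let P : Polynomial ℝ := aeval (fun i => Polynomial.C (y₀ i) + Polynomial.C (w i) * Polynomial.X) q
  have hP : ∀ t : ℝ, P.eval t = eval (y₀ + t • w) q := by
    intro t
    have : (Polynomial.evalRingHom t).comp
        ((aeval (fun i => Polynomial.C (y₀ i) + Polynomial.C (w i) * Polynomial.X) :
          MvPolynomial (Fin f) ℝ →ₐ[ℝ] Polynomial ℝ) : MvPolynomial (Fin f) ℝ →+* Polynomial ℝ) =
        eval (y₀ + t • w) := by
      apply MvPolynomial.ringHom_ext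
      · intro r
        simp only [RingHom.comp_apply, RingHom.coe_coe, algHom_C, eval_C,
          Polynomial.algebraMap_eq, Polynomial.coe_evalRingHom, Polynomial.eval_C]
      · intro i
        simp only [RingHom.comp_apply, RingHom.coe_coe, aeval_X, eval_X,
          Polynomial.coe_evalRingHom, Polynomial.eval_add, Polynomial.eval_mul,
          Polynomial.eval_C, Polynomial.eval_X, Pi.add_apply, Pi.smul_apply, smul_eq_mul]
        ring
    exact congrArg (fun φ : MvPolynomial (Fin f) ℝ →+* ℝ => φ q) this
  have hdeg : P.natDegree ≤ d := by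
    have h := MvPolynomial.aeval_natDegree_le q hd
      (fun i => Polynomial.C (y₀ i) + Polynomial.C (w i) * Polynomial.X) (n := 1) (fun i => by
        refine (Polynomial.natDegree_add_le _ _).trans ?_
        rw [Polynomial.natDegree_C]
        refine max_le (Nat.zero_le _) ?_
        refine (Polynomial.natDegree_C_mul_le _ _).trans ?_
        exact Polynomial.natDegree_X_le)
    rw [mul_one] at h
    exact h
  have hz : P = 0 := by
    by_contra hne
    have h1 : T ⊆ P.roots.toFinset := by
      intro t ht
      rw [Multiset.mem_toFinset, Polynomial.mem_roots hne]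
      exact (hP t).trans (hT t ht)
    have h2 := Finset.card_le_card h1
    have h3 := Multiset.toFinset_card_le P.roots
    have h4 := P.card_roots'
    omega
  intro t
  rw [← hP t, hz]
  simp

end Vale.Agent.P054.L2

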