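import Mathlib

/-! Block L2 (two lines lemma) of P054: definitions. -/

set_option linter.all false
set_option autoImplicit false

namespace Vale.Agent.P054.L2

open Finset MvPolynomial

abbrev V3 := Fin 3 → ℝ

/-- squared distance -/
def sqd (a b : V3) : ℝ := ∑ k, (a k - b k) ^ 2

/-- the point with parameter `t` on the line through `p` with direction `v` -/
def lpt (p v : V3) (t : ℝ) : V3 := p + t • v

/-- the line as a set -/
def lineSet (p v : V3) : Set V3 := Set.range (lpt p v)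

/-- the weight of a pair of pieces with `x` and `y` points -/
def psi (x y : ℕ) : ℕ := if 2 ≤ x ∧ 2 ≤ y then x * y * min x y else 0

/-- `0, 1 ↦ 0` (first line), `2, 3 ↦ 1` (second line) -/
def trk (i : Fin 4) : Fin 2 := if i.val < 2 then 0 else 1

open scoped Classical in
/-- Data of the two lines lemma. `X 0` = first source set, `X 1` = first target set, `X 2`, `X 3`
the second source and target set. For `g ∈ G`: four lines `t ↦ lpt (p i g) (v i g) t`; the `T 0 g`
are the parameters of matched pairs on the first line, `T 1 g` on the second line. -/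
structure L2D (B : ℕ) (ι : Type) where
  G : Finset ι
  X : Fin 4 → Finset V3
  p : Fin 4 → ι → V3
  v : Fin 4 → ι → V3
  T : Fin 2 → ι → Finset ℝ
  hv : ∀ i, ∀ g ∈ G, v i g ≠ 0
  hX : ∀ i, ∀ g ∈ G, ∀ t ∈ T (trk i) g, lpt (p i g) (v i g) t ∈ X i
  hiso : ∀ g ∈ G, ∀ t ∈ T 0 g, ∀ s ∈ T 1 g,
    sqd (lpt (p 0 g) (v 0 g) t) (lpt (p 2 g) (v 2 g) s) =
      sqd (lpt (p 1 g) (v 1 g) t) (lpt (p 3 g) (v 3 g) s)
  hJ : ∀ S₁ S₂ : Finset (V3 × V3),
    (G.filter (fun g =>
      2 ≤ ((T 0 g).filter (fun t =>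
        (lpt (p 0 g) (v 0 g) t, lpt (p 1 g) (v 1 g) t) ∈ S₁)).card ∧
      2 ≤ ((T 1 g).filter (fun t =>
        (lpt (p 2 g) (v 2 g) t, lpt (p 3 g) (v 3 g) t) ∈ S₂)).card)).card
      ≤ B * (S₁.card * S₂.card)

/-- the weighted number of elements of `G` -/
def L2D.wt {B : ℕ} {ι : Type} (D : L2D B ι) : ℝ :=
  ∑ g ∈ D.G, (psi (D.T 0 g).card (D.T 1 g).card : ℝ)

/-- the product of the four cardinalities -/
def L2D.N {B : ℕ} {ι : Type} (D : L2D B ι) : ℕ := ∏ i, (D.X i).card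

/-- restriction of the data to fewer `g`, fewer parameters and smaller sets -/
def L2D.restrict {B : ℕ} {ι : Type} (D : L2D B ι) (G' : Finset ι) (hG : G' ⊆ D.G)
    (X' : Fin 4 → Finset V3) (T' : Fin 2 → ι → Finset ℝ)
    (hT : ∀ k, ∀ g ∈ G', T' k g ⊆ D.T k g)
    (hX : ∀ i, ∀ g ∈ G', ∀ t ∈ T' (trk i) g, lpt (D.p i g) (D.v i g) t ∈ X' i) : L2D B ι where
  G := G'
  X := X'
  p := D.p
  v := D.v
  T := T'
  hv := fun i g hg => D.hv i g (hG hg)
  hX := hX
  hiso := fun g hg t ht s hs => D.hiso g (hG hg) t (hT 0 g hg ht) s (hT 1 g hg hs)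
  hJ := by
    classical
    intro S₁ S₂
    refine le_trans (Finset.card_le_card ?_) (D.hJ S₁ S₂)
    intro g hg
    rw [Finset.mem_filter] at hg ⊢
    refine ⟨hG hg.1, le_trans hg.2.1 (Finset.card_le_card ?_),
      le_trans hg.2.2 (Finset.card_le_card ?_)⟩
    · exact Finset.filter_subset_filter _ (hT 0 g hg.1)
    · exact Finset.filter_subset_filter _ (hT 1 g hg.1)

/-- orthonormal frame of length `f` -/
def ONF {f : ℕ} (e : Fin f → V3) : Prop :=
  ∀ i j, ∑ k, e i k * e j k = if i = j then (1 : ℝ) else 0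

/-- coordinates with respect to the frame `e` at the point `o` -/
def coord {f : ℕ} (o : V3) (e : Fin f → V3) (x : V3) : Fin f → ℝ :=
  fun i => ∑ k, (x k - o k) * e i k

/-- the point with coordinates `y` -/
def emb {f : ℕ} (o : V3) (e : Fin f → V3) (y : Fin f → ℝ) : V3 := o + ∑ i, y i • e i

/-- `X` lies in the flat of dimension `f` with frame `(o, e)` -/
def InFlat {f : ℕ} (o : V3) (e : Fin f → V3) (X : Finset V3) : Prop :=
  ONF e ∧ ∀ x ∈ X, emb o e (coord o e x) = x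

/-- `X` lies in some flat of dimension `f` -/
def OnFlat (f : ℕ) (X : Finset V3) : Prop := ∃ (o : V3) (e : Fin f → V3), InFlat o e X

/-- the bound for all data with `X i` in a flat of dimension `f i` -/
def Claim (B : ℕ) (f : Fin 4 → ℕ) (ε C : ℝ) : Prop :=
  ∀ (ι : Type) (D : L2D B ι), (∀ i, OnFlat (f i) (D.X i)) → D.wt ≤ C * (D.N : ℝ) ^ (1 + ε)

/-- the bound is known for all smaller dimension types -/
def LowClaims (B : ℕ) (f : Fin 4 → ℕ) (ε : ℝ) : Prop :=
  ∀ f' : Fin 4 → ℕ, (∀ i, 1 ≤ f' i ∧ f' i ≤ f i) → f' ≠ f → ∃ C : ℝ, 0 ≤ C ∧ Claim B f' ε C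

end Vale.Agent.P054.L2
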