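import Vale.Agent.P054.L2.Defs

/-! Block L2, leaf FRAMES: elementary facts on flats and frames. -/

set_option linter.all false
set_option autoImplicit false

namespace Vale.Agent.P054.L2

open Finset MvPolynomial

theorem fr687_full (e : Fin 3 → V3) (he : ONF e) (o x : V3) : emb o e (coord o e x) = x := by
  let M : Matrix (Fin 3) (Fin 3) ℝ := Matrix.of e
  have h1 : M * M.transpose = 1 := by
    ext i j
    rw [Matrix.mul_apply, Matrix.one_apply]
    exact he i j
  have h2 : M.transpose * M = 1 := mul_eq_one_comm.1 h1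
  have h3 : ∀ k l, ∑ i, e i k * e i l = if k = l then (1 : ℝ) else 0 := by
    intro k l
    have h4 := congrFun (congrFun h2 k) l
    rw [Matrix.mul_apply, Matrix.one_apply] at h4
    exact h4
  funext l
  simp only [emb, coord, Pi.add_apply, Finset.sum_apply, Pi.smul_apply, smul_eq_mul]
  have h5 : ∑ i, (∑ k, (x k - o k) * e i k) * e i l = x l - o l := by
    simp only [Finset.sum_mul]
    rw [Finset.sum_comm]
    have h6 : ∀ k, ∑ i, (x k - o k) * e i k * e i l = (x k - o k) * if k = l then (1 : ℝ) else 0 := by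
      intro k
      rw [← h3, Finset.mul_sum]
      exact Finset.sum_congr rfl fun i _ => by ring
    simp only [h6, mul_ite, mul_one, mul_zero, Finset.sum_ite_eq', Finset.mem_univ, if_true]
  rw [h5]
  ring

theorem onFlat_three (X : Finset V3) : OnFlat 3 X := by
  have he : ONF (fun i : Fin 3 => (Pi.single i 1 : V3)) := by
    intro i j
    simp only [Pi.single_apply, mul_ite, mul_one, mul_zero, Finset.sum_ite_eq', Finset.mem_univ, if_true]
    by_cases h : i = j
    · subst h; simp
    · rw [if_neg h, if_neg (fun h1 => h h1.symm)]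
  exact ⟨0, _, he, fun x _ => fr687_full _ he 0 x⟩

theorem fr687_pos (v : V3) (hv : v ≠ 0) : 0 < ∑ k, v k * v k := by
  obtain ⟨k, hk⟩ : ∃ k, v k ≠ 0 := by
    by_contra h
    push Not at h
    exact hv (funext h)
  refine Finset.sum_pos' (fun i _ => mul_self_nonneg _) ⟨k, Finset.mem_univ _, ?_⟩
  exact mul_self_pos.2 hk

theorem onFlat_line (p v : V3) (hv : v ≠ 0) (X : Finset V3) (h : ∀ x ∈ X, x ∈ lineSet p v) :
    OnFlat 1 X := by
  have hpos := fr687_pos v hv
  set r := Real.sqrt (∑ k, v k * v k) with hr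
  have hr0 : 0 < r := Real.sqrt_pos.2 hpos
  have hr2 : r * r = ∑ k, v k * v k := Real.mul_self_sqrt hpos.le
  refine ⟨p, fun _ => r⁻¹ • v, ?_, ?_⟩
  · intro i j
    rw [if_pos (Subsingleton.elim i j)]
    simp only [Pi.smul_apply, smul_eq_mul]
    have h1 : ∀ k, r⁻¹ * v k * (r⁻¹ * v k) = (r⁻¹ * r⁻¹) * (v k * v k) := fun k => by ring
    simp only [h1]
    rw [← Finset.mul_sum, ← hr2]
    field_simp
  · intro x hx
    obtain ⟨t, rfl⟩ := h x hx
    funext l
    simp only [emb, coord, lpt, Pi.add_apply, Finset.sum_apply, Pi.smul_apply, smul_eq_mul, Finset.univ_unique,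
      Finset.sum_singleton]
    have h1 : ∀ k, (p k + t * v k - p k) * (r⁻¹ * v k) = (t * r⁻¹) * (v k * v k) := fun k => by ring
    simp only [h1]
    rw [← Finset.mul_sum, ← hr2]
    field_simp

theorem fr687_perp (n : V3) (hn : n ≠ 0) : ∃ e : Fin 3 → V3, ONF e ∧ ∃ r : ℝ, r ≠ 0 ∧ n = r • e 2 := by
  have hpos := fr687_pos n hn
  set r := Real.sqrt (∑ k, n k * n k) with hr
  have hr0 : 0 < r := Real.sqrt_pos.2 hpos
  have hr2 : r * r = ∑ k, n k * n k := Real.mul_self_sqrt hpos.le
  let E := EuclideanSpace ℝ (Fin 3)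
  let a : E := WithLp.toLp 2 (r⁻¹ • n)
  have hin : ∀ x y : E, inner ℝ x y = ∑ k, x k * y k := by
    intro x y
    rw [PiLp.inner_apply]
    exact Finset.sum_congr rfl fun k _ => by
      simp [mul_comm]
  have ha : ‖a‖ = 1 := by
    have h1 : ‖a‖ ^ 2 = 1 := by
      rw [← real_inner_self_eq_norm_sq, hin]
      have h1 : ∀ k, a k * a k = (r⁻¹ * r⁻¹) * (n k * n k) := fun k => by
        change (r⁻¹ * n k) * (r⁻¹ * n k) = _
        ring
      simp only [h1]
      rw [← Finset.mul_sum, ← hr2]
      field_simp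
    nlinarith [norm_nonneg a]
  have ho : Orthonormal ℝ (({2} : Set (Fin 3)).restrict (fun _ : Fin 3 => a)) := by
    constructor
    · intro i
      exact ha
    · intro i j hij
      exact absurd (Subsingleton.elim i j) hij
  obtain ⟨b, hb⟩ := Orthonormal.exists_orthonormalBasis_extension_of_card_eq (𝕜 := ℝ) (E := E) (ι := Fin 3)
    (by simp [E]) ho
  refine ⟨fun i k => b i k, ?_, r, hr0.ne', ?_⟩
  · intro i j
    rw [← hin]
    exact orthonormal_iff_ite.1 b.orthonormal i j
  · have h2 := hb 2 (Set.mem_singleton _)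
    funext k
    simp only [Pi.smul_apply, smul_eq_mul, h2]
    change n k = r * (r⁻¹ * n k)
    field_simp

theorem onFlat_plane (n : V3) (hn : n ≠ 0) (c : ℝ) (X : Finset V3)
    (h : ∀ x ∈ X, ∑ k, n k * x k = c) : OnFlat 2 X := by
  obtain ⟨e, he, r, hr, hnr⟩ := fr687_perp n hn
  let o : V3 := (c / r) • e 2
  have ho : ∀ x ∈ X, ∑ k, (x k - o k) * e 2 k = 0 := by
    intro x hx
    have h1 := h x hx
    have h2 := he 2 2
    rw [if_pos rfl] at h2
    have h3 : ∑ k, (x k - o k) * e 2 k = r⁻¹ * (∑ k, n k * x k) - (c / r) * ∑ k, e 2 k * e 2 k := by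
      rw [Finset.mul_sum, Finset.mul_sum, ← Finset.sum_sub_distrib]
      refine Finset.sum_congr rfl fun k _ => ?_
      change (x k - (c / r) * e 2 k) * e 2 k = _
      have h4 : n k = r * e 2 k := by
        conv_lhs => rw [hnr]
        rfl
      rw [h4]
      field_simp
    rw [h3, h1, h2]
    field_simp
    ring
  refine ⟨o, fun i : Fin 2 => e i.castSucc, ?_, ?_⟩
  · intro i j
    rw [he]
    simp only [Fin.castSucc_inj]
  · intro x hx
    have h1 := fr687_full e he o x
    conv_rhs => rw [← h1]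
    unfold emb
    rw [Fin.sum_univ_castSucc (n := 2)]
    have h2 : coord o e x (Fin.last 2) = 0 := ho x hx
    rw [h2, zero_smul, add_zero]
    rfl

theorem OnFlat.mono {f : ℕ} {X Y : Finset V3} (h : OnFlat f Y) (hXY : X ⊆ Y) : OnFlat f X := by
  obtain ⟨o, e, he, hx⟩ := h
  exact ⟨o, e, he, fun x hx' => hx x (hXY hx')⟩

theorem coord_emb {f : ℕ} (o : V3) (e : Fin f → V3) (he : ONF e) (y : Fin f → ℝ) :
    coord o e (emb o e y) = y := by
  funext i
  simp only [emb, coord, Pi.add_apply, Finset.sum_apply, Pi.smul_apply, smul_eq_mul, add_sub_cancel_left, Finset.sum_mul]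
  rw [Finset.sum_comm]
  have h1 : ∀ j, ∑ k, y j * e j k * e i k = y j * if j = i then (1 : ℝ) else 0 := by
    intro j
    rw [← he j i, Finset.mul_sum]
    exact Finset.sum_congr rfl fun k _ => by ring
  simp only [h1, mul_ite, mul_one, mul_zero, Finset.sum_ite_eq', Finset.mem_univ, if_true]

/-- coordinates along a line are affine in the parameter -/
theorem coord_lpt {f : ℕ} (o : V3) (e : Fin f → V3) (p v : V3) (t : ℝ) :
    coord o e (lpt p v t) = coord o e p + t • (fun i => ∑ k, v k * e i k) := by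
  funext i
  simp only [coord, lpt, Pi.add_apply, Pi.smul_apply, smul_eq_mul]
  rw [Finset.mul_sum, ← Finset.sum_add_distrib]
  exact Finset.sum_congr rfl fun k _ => by ring

/-- if a line has two points in a flat, it lies in the flat, and its direction in coordinates
is nonzero -/
theorem line_in_flat {f : ℕ} (o : V3) (e : Fin f → V3) (he : ONF e) (p v : V3) (hv : v ≠ 0)
    (t₁ t₂ : ℝ) (ht : t₁ ≠ t₂) (h₁ : emb o e (coord o e (lpt p v t₁)) = lpt p v t₁)
    (h₂ : emb o e (coord o e (lpt p v t₂)) = lpt p v t₂) :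
    (∀ t, emb o e (coord o e (lpt p v t)) = lpt p v t) ∧
      (fun i => ∑ k, v k * e i k : Fin f → ℝ) ≠ 0 := by
  set w : Fin f → ℝ := fun i => ∑ k, v k * e i k with hw
  have key : ∀ t l, emb o e (coord o e (lpt p v t)) l = (o l + ∑ i, coord o e p i * e i l) + t * ∑ i, w i * e i l := by
    intro t l
    rw [coord_lpt]
    simp only [emb, Pi.add_apply, Finset.sum_apply, Pi.smul_apply, smul_eq_mul]
    rw [Finset.mul_sum, add_assoc, ← Finset.sum_add_distrib]
    congr 1
    exact Finset.sum_congr rfl fun i _ => by ring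
  have hD : ∀ l, ∑ i, w i * e i l = v l := by
    intro l
    have h3 := key t₁ l
    have h4 := key t₂ l
    rw [h₁] at h3
    rw [h₂] at h4
    simp only [lpt, Pi.add_apply, Pi.smul_apply, smul_eq_mul] at h3 h4
    have h5 : (t₁ - t₂) * (∑ i, w i * e i l) = (t₁ - t₂) * v l := by linarith
    exact mul_left_cancel₀ (sub_ne_zero.2 ht) h5
  have hC : ∀ l, o l + ∑ i, coord o e p i * e i l = p l := by
    intro l
    have h3 := key t₁ l
    rw [h₁, hD] at h3
    simp only [lpt, Pi.add_apply, Pi.smul_apply, smul_eq_mul] at h3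
    linarith
  constructor
  · intro t
    funext l
    rw [key, hD, hC]
    simp [lpt]
  · intro h0
    apply hv
    funext l
    rw [← hD l]
    simp only [h0, Pi.zero_apply, zero_mul, Finset.sum_const_zero]

theorem fr687_deg {f : ℕ} (L : Fin f → MvPolynomial (Fin 3) ℝ) (hL : ∀ i, (L i).totalDegree ≤ 1)
    (F : MvPolynomial (Fin f) ℝ) : (aeval L F).totalDegree ≤ F.totalDegree := by
  rw [aeval_def, eval₂_eq]
  refine totalDegree_finsetSum_le fun m hm => ?_
  refine (totalDegree_mul _ _).trans ?_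
  rw [algebraMap_eq, totalDegree_C, zero_add]
  refine (totalDegree_finsetProd _ _).trans ?_
  refine le_trans (Finset.sum_le_sum fun i _ => (totalDegree_pow (L i) (m i)).trans
    (Nat.mul_le_mul_left _ (hL i))) ?_
  simp only [mul_one]
  exact le_totalDegree hm

/-- pullback of a nonzero polynomial along coordinates -/
theorem exists_pullback {f : ℕ} (o : V3) (e : Fin f → V3) (he : ONF e)
    (F : MvPolynomial (Fin f) ℝ) (hF : F ≠ 0) :
    ∃ F' : MvPolynomial (Fin 3) ℝ, F' ≠ 0 ∧ F'.totalDegree ≤ F.totalDegree ∧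
      ∀ x : V3, eval x F' = eval (coord o e x) F := by
  let L : Fin f → MvPolynomial (Fin 3) ℝ := fun i => ∑ k, (X k - C (o k)) * C (e i k)
  have hL : ∀ i, (L i).totalDegree ≤ 1 := by
    intro i
    refine totalDegree_finsetSum_le fun k _ => ?_
    refine (totalDegree_mul _ _).trans ?_
    rw [totalDegree_C, add_zero]
    refine (totalDegree_sub _ _).trans ?_
    rw [totalDegree_X, totalDegree_C]
    simp
  have hev : ∀ x : V3, eval x (aeval L F) = eval (coord o e x) F := by
    intro x
    have h1 : eval x (aeval L F) = eval₂ (RingHom.id ℝ) (fun i => eval x (L i)) F := by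
      rw [aeval_def, ← coe_eval₂Hom, ← coe_eval₂Hom]
      have h2 : ((eval x).comp (eval₂Hom (algebraMap ℝ (MvPolynomial (Fin 3) ℝ)) L)) =
          eval₂Hom (RingHom.id ℝ) (fun i => eval x (L i)) := by
        apply MvPolynomial.ringHom_ext
        · intro r
          simp
        · intro i
          simp
      exact congrArg (fun g => g F) h2
    rw [h1]
    have h3 : (fun i => eval x (L i)) = coord o e x := by
      funext i
      simp [L, coord]
    rw [h3]
    rfl
  refine ⟨aeval L F, ?_, fr687_deg L hL F, hev⟩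
  intro h0
  apply hF
  apply MvPolynomial.funext
  intro y
  rw [map_zero]
  have h1 := hev (emb o e y)
  rw [coord_emb o e he, h0, map_zero] at h1
  exact h1.symm

end Vale.Agent.P054.L2
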