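import Vale.Agent.P054.L2.Defs
import Vale.Agent.P054.W.Quadric

/-! Block L2, leaf REALIS: number of realisable quadruples of cells.
Proof: put the four coordinate vectors together: `Σ i, Fin (f i) ≃ Fin F`, `F = ∑ f i`; the
polynomial `sqd (emb y0) (emb y2) - sqd (emb y1) (emb y3)` has total degree `≤ 2` and the
coefficient of `(y_0)_0 ^ 2` is `|e 0 0|^2 = 1`. Apply `card_cells_quadric_le` (W/Quadric.lean). -/

set_option linter.all false
set_option autoImplicit false

namespace Vale.Agent.P054.L2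

open Finset MvPolynomial

/-- coefficient of `X^2` in a square -/
theorem rls_sq {n : ℕ} (L : MvPolynomial (Fin n) ℝ) (i0 : Fin n) :
    coeff (Finsupp.single i0 2) (L ^ 2) =
      2 * coeff 0 L * coeff (Finsupp.single i0 2) L + (coeff (Finsupp.single i0 1) L) ^ 2 := by
  rw [sq, coeff_mul, Finsupp.antidiagonal_single, Finset.sum_map]
  have h : (Finset.HasAntidiagonal.antidiagonal 2 : Finset (ℕ × ℕ)) = {(0, 2), (1, 1), (2, 0)} := by decide
  rw [h, Finset.sum_insert (by decide), Finset.sum_insert (by decide), Finset.sum_singleton]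
  simp only [Function.Embedding.coe_prodMap, Function.Embedding.coeFn_mk, Prod.map_apply, Finsupp.single_zero]
  ring

/-- the coordinates of the embedded point as polynomials -/
noncomputable def rlsP {F n : ℕ} (g : Fin n → Fin F) (o : V3) (e : Fin n → V3) (k : Fin 3) :
    MvPolynomial (Fin F) ℝ :=
  C (o k) + ∑ l, C (e l k) * X (g l)

theorem rlsP_eval {F n : ℕ} (g : Fin n → Fin F) (o : V3) (e : Fin n → V3) (k : Fin 3)
    (Y : Fin F → ℝ) : eval Y (rlsP g o e k) = emb o e (fun l => Y (g l)) k := by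
  simp only [rlsP, emb, map_add, map_sum, map_mul, eval_C, eval_X, Pi.add_apply, Finset.sum_apply,
    Pi.smul_apply, smul_eq_mul]
  congr 1
  exact Finset.sum_congr rfl fun l _ => mul_comm _ _

theorem rlsP_deg {F n : ℕ} (g : Fin n → Fin F) (o : V3) (e : Fin n → V3) (k : Fin 3) :
    (rlsP g o e k).totalDegree ≤ 1 := by
  unfold rlsP
  refine (totalDegree_add _ _).trans (max_le ?_ ?_)
  · rw [totalDegree_C]
    exact Nat.zero_le _
  · refine (totalDegree_finset_sum _ _).trans (Finset.sup_le fun l _ => ?_)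
    refine (totalDegree_mul _ _).trans ?_
    rw [totalDegree_C, totalDegree_X]

theorem rlsP_coeff2 {F n : ℕ} (g : Fin n → Fin F) (o : V3) (e : Fin n → V3) (k : Fin 3) (i0 : Fin F) :
    coeff (Finsupp.single i0 2) (rlsP g o e k) = 0 := by
  refine coeff_eq_zero_of_totalDegree_lt ?_
  have h1 := rlsP_deg g o e k
  have h2 : ∑ i ∈ (Finsupp.single i0 2).support, (Finsupp.single i0 2) i = 2 := by
    rw [Finsupp.support_single_ne_zero _ (by norm_num)]
    simp
  omega

theorem rlsP_coeff1 {F n : ℕ} (g : Fin n → Fin F) (o : V3) (e : Fin n → V3) (k : Fin 3) (i0 : Fin F) :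
    coeff (Finsupp.single i0 1) (rlsP g o e k) = ∑ l, if g l = i0 then e l k else 0 := by
  have hne : (0 : Fin F →₀ ℕ) ≠ Finsupp.single i0 1 := by
    intro h
    have := DFunLike.congr_fun h i0
    simp at this
  rw [rlsP, coeff_add, coeff_C, if_neg hne, zero_add, coeff_sum]
  refine Finset.sum_congr rfl fun l _ => ?_
  rw [coeff_C_mul, coeff_X']
  by_cases h : g l = i0
  · rw [if_pos (by rw [h]), if_pos h, mul_one]
  · rw [if_neg (fun h2 => h (Finsupp.single_left_injective one_ne_zero h2)), if_neg h, mul_zero]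

theorem realis (f : Fin 4 → ℕ) (hf : ∀ i, 1 ≤ f i) (o : Fin 4 → V3)
    (e : ∀ i, Fin (f i) → V3) (he : ∀ i, ONF (e i))
    (J : Fin 4 → Type) [∀ i, Fintype (J i)] (q : ∀ i, J i → MvPolynomial (Fin (f i)) ℝ) (D : ℕ)
    (hD1 : 1 ≤ D) (hD : ∑ i, ∑ j, (q i j).totalDegree ≤ D)
    (Q : Finset (∀ i, J i → Bool))
    (hQ : ∀ c ∈ Q, ∃ y : ∀ i, Fin (f i) → ℝ,
      (∀ i j, eval (y i) (q i j) ≠ 0 ∧ (c i j = true ↔ 0 < eval (y i) (q i j))) ∧
      sqd (emb (o 0) (e 0) (y 0)) (emb (o 2) (e 2) (y 2)) =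
        sqd (emb (o 1) (e 1) (y 1)) (emb (o 3) (e 3) (y 3))) :
    Q.card ≤ (10 * 81 ^ (∑ i, f i - 1)) * D ^ (∑ i, f i - 1) := by
  classical
  set σ : (Σ i : Fin 4, Fin (f i)) ≃ Fin (∑ i, f i) := finSigmaFinEquiv with hσ
  set g : ∀ i, Fin (f i) → Fin (∑ i, f i) := fun i l => σ ⟨i, l⟩ with hg
  set P : Fin 4 → Fin 3 → MvPolynomial (Fin (∑ i, f i)) ℝ := fun i k => rlsP (g i) (o i) (e i) k with hP
  set q0 : MvPolynomial (Fin (∑ i, f i)) ℝ :=
    ∑ k, (P 0 k - P 2 k) ^ 2 - ∑ k, (P 1 k - P 3 k) ^ 2 with hq0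
  set i0 : Fin (∑ i, f i) := g 0 ⟨0, hf 0⟩ with hi0
  have hc2 : ∀ i k, coeff (Finsupp.single i0 2) (P i k) = 0 := fun i k => rlsP_coeff2 _ _ _ _ _
  have hc1 : ∀ i, i ≠ 0 → ∀ k, coeff (Finsupp.single i0 1) (P i k) = 0 := by
    intro i hi k
    rw [hP]
    simp only
    rw [rlsP_coeff1]
    refine Finset.sum_eq_zero fun l _ => if_neg fun h => hi ?_
    have h2 := σ.injective h
    exact congrArg Sigma.fst h2
  have hc0 : ∀ k, coeff (Finsupp.single i0 1) (P 0 k) = e 0 ⟨0, hf 0⟩ k := by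
    intro k
    rw [hP]
    simp only
    rw [rlsP_coeff1, Finset.sum_eq_single ⟨0, hf 0⟩]
    · rw [if_pos rfl]
    · intro l _ hl
      refine if_neg fun h => hl ?_
      have h2 := σ.injective h
      simpa using h2
    · intro h
      exact absurd (Finset.mem_univ _) h
  have hdeg : q0.totalDegree ≤ 2 := by
    have h1 : ∀ i j k, ((P i k - P j k) ^ 2).totalDegree ≤ 2 := by
      intro i j k
      refine (totalDegree_pow _ _).trans ?_
      have h2 : (P i k - P j k).totalDegree ≤ 1 :=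
        (totalDegree_sub _ _).trans (max_le (rlsP_deg _ _ _ _) (rlsP_deg _ _ _ _))
      omega
    refine (totalDegree_sub _ _).trans (max_le ?_ ?_)
    · exact (totalDegree_finset_sum _ _).trans (Finset.sup_le fun k _ => h1 _ _ _)
    · exact (totalDegree_finset_sum _ _).trans (Finset.sup_le fun k _ => h1 _ _ _)
  have hcoeff : coeff (Finsupp.single i0 2) q0 = 1 := by
    rw [hq0, coeff_sub, coeff_sum, coeff_sum]
    have h1 : ∀ k, coeff (Finsupp.single i0 2) ((P 0 k - P 2 k) ^ 2) = e 0 ⟨0, hf 0⟩ k ^ 2 := by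
      intro k
      rw [rls_sq, coeff_sub, coeff_sub, coeff_sub, hc2, hc2, hc0, hc1 2 (by decide)]
      ring
    have h2 : ∀ k, coeff (Finsupp.single i0 2) ((P 1 k - P 3 k) ^ 2) = 0 := by
      intro k
      rw [rls_sq, coeff_sub, coeff_sub, coeff_sub, hc2, hc2, hc1 1 (by decide), hc1 3 (by decide)]
      ring
    simp only [h1, h2, Finset.sum_const_zero, sub_zero]
    have h3 := he 0 ⟨0, hf 0⟩ ⟨0, hf 0⟩
    rw [if_pos rfl] at h3
    rw [← h3]
    exact Finset.sum_congr rfl fun k _ => sq _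
  set fp : (Σ i : Fin 4, J i) → MvPolynomial (Fin (∑ i, f i)) ℝ := fun p => rename (g p.1) (q p.1 p.2) with hfp
  have hDp : ∑ p, (fp p).totalDegree ≤ D := by
    refine le_trans ?_ hD
    rw [Fintype.sum_sigma]
    exact Finset.sum_le_sum fun i _ => Finset.sum_le_sum fun j _ => totalDegree_rename_le _ _
  have key := W.card_cells_quadric_le q0 i0 hdeg hcoeff fp D hD1 hDp
    (Q.image fun c => fun p : (Σ i : Fin 4, J i) => c p.1 p.2) ?_
  · rwa [Finset.card_image_of_injective] at key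
    intro c c' h
    funext i j
    exact congrFun h ⟨i, j⟩
  · intro c hc
    obtain ⟨c', hc', rfl⟩ := Finset.mem_image.1 hc
    obtain ⟨y, hy1, hy2⟩ := hQ c' hc'
    set Y : Fin (∑ i, f i) → ℝ := fun a => y (σ.symm a).1 (σ.symm a).2 with hY
    have hYg : ∀ i, (fun l => Y (g i l)) = y i := by
      intro i
      funext l
      have h1 : σ.symm (σ ⟨i, l⟩) = ⟨i, l⟩ := σ.symm_apply_apply _
      show y (σ.symm (σ ⟨i, l⟩)).1 (σ.symm (σ ⟨i, l⟩)).2 = y i l
      rw [h1]
    refine ⟨Y, ?_, ?_⟩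
    · have hev : ∀ i k, eval Y (P i k) = emb (o i) (e i) (y i) k := by
        intro i k
        rw [hP]
        simp only
        rw [rlsP_eval, hYg]
      rw [hq0]
      simp only [map_sub, map_sum, map_pow, hev]
      rw [sub_eq_zero]
      exact hy2
    · rintro ⟨i, j⟩
      have h1 : eval Y (fp ⟨i, j⟩) = eval (y i) (q i j) := by
        rw [hfp]
        simp only
        rw [eval_rename]
        have : Y ∘ g i = y i := hYg i
        rw [this]
      rw [h1]
      exact hy1 i j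

end Vale.Agent.P054.L2
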