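import Vale.Agent.P054.L2.Defs
import Vale.Agent.P054.W.Partition

/-! Block L2, STEP, part A: choice of `m`, the cells. -/

set_option linter.all false
set_option autoImplicit false

namespace Vale.Agent.P054.L2

open Finset MvPolynomial

theorem choose_m (ε : ℝ) (hε : 0 < ε) (F : ℕ) (hF : 1 ≤ F) : ∃ m : ℕ, 1 ≤ m ∧
    (((64 * (2 * (72 * 2 ^ m) + 1) * ((10 * 81 ^ (F - 1)) * (72 * 2 ^ m) ^ (F - 1)) : ℕ)) : ℝ)
      ≤ (1 / 2) * (((2 ^ (m * F) : ℕ) : ℝ)) ^ (1 + ε) := by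
  set K1 : ℝ := 64 * 145 * (10 * 81 ^ (F - 1)) * 72 ^ (F - 1) with hK1
  have h2 : (1 : ℝ) < (2 : ℝ) ^ ε := Real.one_lt_rpow (by norm_num) hε
  obtain ⟨n, hn⟩ := pow_unbounded_of_one_lt (2 * K1) h2
  refine ⟨n + 1, by omega, ?_⟩
  set m := n + 1 with hm
  have hm1 : 1 ≤ m := by omega
  have hpos : (0 : ℝ) < ((2 ^ (m * F) : ℕ) : ℝ) := by positivity
  have hK0 : 0 ≤ K1 := by positivity
  have e1 : (((64 * (2 * (72 * 2 ^ m) + 1) * ((10 * 81 ^ (F - 1)) * (72 * 2 ^ m) ^ (F - 1)) : ℕ)) : ℝ)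
      ≤ K1 * ((2 ^ (m * F) : ℕ) : ℝ) := by
    push_cast
    have h3 : (1 : ℝ) ≤ 2 ^ m := one_le_pow₀ (by norm_num)
    have h4 : (2 : ℝ) * (72 * 2 ^ m) + 1 ≤ 145 * 2 ^ m := by linarith
    have h5 : (2 : ℝ) ^ (m * F) = 2 ^ m * (2 ^ m) ^ (F - 1) := by
      rw [← pow_succ', Nat.sub_add_cancel hF, pow_mul]
    rw [h5, mul_pow]
    calc (64 : ℝ) * (2 * (72 * 2 ^ m) + 1) * (10 * 81 ^ (F - 1) * (72 ^ (F - 1) * (2 ^ m) ^ (F - 1)))
        ≤ 64 * (145 * 2 ^ m) * (10 * 81 ^ (F - 1) * (72 ^ (F - 1) * (2 ^ m) ^ (F - 1))) := by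
          gcongr
      _ = K1 * (2 ^ m * (2 ^ m) ^ (F - 1)) := by rw [hK1]; ring
  refine le_trans e1 ?_
  rw [Real.rpow_add hpos, Real.rpow_one]
  have e2 : 2 * K1 ≤ (((2 ^ (m * F) : ℕ) : ℝ)) ^ ε := by
    push_cast
    have e3 : ((2 : ℝ) ^ (m * F)) ^ ε = ((2 : ℝ) ^ ε) ^ (m * F) := by
      rw [← Real.rpow_natCast, ← Real.rpow_mul (by norm_num), mul_comm _ ε,
        Real.rpow_mul (by norm_num), Real.rpow_natCast]
    rw [e3]
    refine le_trans hn.le ?_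
    refine pow_le_pow_right₀ h2.le ?_
    calc n ≤ m * 1 := by omega
      _ ≤ m * F := Nat.mul_le_mul_left _ hF
  calc K1 * ((2 ^ (m * F) : ℕ) : ℝ) = (1 / 2) * (((2 ^ (m * F) : ℕ) : ℝ) * (2 * K1)) := by ring
    _ ≤ (1 / 2) * (((2 ^ (m * F) : ℕ) : ℝ) * (((2 ^ (m * F) : ℕ) : ℝ)) ^ ε) := by gcongr

/-- `x` is in the open cell with sign vector `σ` -/
def InCell {f : ℕ} {J : Type} (o : V3) (e : Fin f → V3)
    (q : J → MvPolynomial (Fin f) ℝ) (σ : J → Bool) (x : V3) : Prop :=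
  ∀ j, eval (coord o e x) (q j) ≠ 0 ∧ (σ j = true ↔ 0 < eval (coord o e x) (q j))

open scoped Classical in
/-- the open cell with sign vector `σ` -/
noncomputable def cell {f : ℕ} {J : Type} (o : V3) (e : Fin f → V3) (X : Finset V3)
    (q : J → MvPolynomial (Fin f) ℝ) (σ : J → Bool) : Finset V3 :=
  X.filter (InCell o e q σ)

theorem exists_cells {f : ℕ} (hf : 1 ≤ f) (hf3 : f ≤ 3) (o : V3) (e : Fin f → V3)
    (X : Finset V3) (m : ℕ) : ∃ q : Fin (f * m) → MvPolynomial (Fin f) ℝ,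
      (∀ j, q j ≠ 0) ∧ ∑ j, (q j).totalDegree ≤ 18 * 2 ^ m ∧
      ∀ σ : Fin (f * m) → Bool, 2 ^ (f * m) * (cell o e X q σ).card ≤ X.card := by
  classical
  obtain ⟨g, hg0, hdeg, hg⟩ := Vale.Agent.P054.W.poly_partition_dim (f := f) hf (coord o e) X m
  refine ⟨fun j => g j, fun j => hg0 j, ?_, ?_⟩
  · rw [← Fin.sum_univ_eq_sum_range (fun j => (g j).totalDegree)] at hdeg
    refine le_trans hdeg ?_
    have : f ^ 2 ≤ 3 ^ 2 := Nat.pow_le_pow_left hf3 2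
    nlinarith [Nat.pos_of_ne_zero (show (2:ℕ) ^ m ≠ 0 by positivity)]
  · intro σ
    have h := hg (fun j => if h : j < f * m then σ ⟨j, h⟩ else true)
    refine le_trans (Nat.mul_le_mul_left _ (Finset.card_le_card ?_)) h
    intro x hx
    unfold cell at hx
    rw [mem_filter] at hx ⊢
    refine ⟨hx.1, fun j hj => ?_⟩
    have h2 : eval (coord o e x) (g j) ≠ 0 ∧ (σ ⟨j, hj⟩ = true ↔ 0 < eval (coord o e x) (g j)) :=
      hx.2 ⟨j, hj⟩
    simp only [hj, dif_pos]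
    unfold Vale.Agent.P041.SE.Sg
    by_cases h3 : σ ⟨j, hj⟩ = true
    · rw [if_pos h3]
      exact h2.2.1 h3
    · rw [if_neg h3]
      have h4 : ¬ 0 < eval (coord o e x) (g j) := fun h5 => h3 (h2.2.2 h5)
      exact lt_of_le_of_ne (not_lt.1 h4) h2.1

end Vale.Agent.P054.L2
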