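import Vale.Agent.P054.L2.StepA
import Vale.Agent.P054.L2.Frames
import Vale.Agent.P054.L2.Crossing
import Vale.Agent.P054.L2.Pieces
import Vale.Agent.P054.L2.Realis

/-! Block L2, STEP, part B: the good elements. -/

set_option linter.all false
set_option autoImplicit false

namespace Vale.Agent.P054.L2

open Finset MvPolynomial

open scoped Classical in
/-- restriction of the data to the cells `τ` -/
noncomputable def piece {B : ℕ} {ι : Type} (D : L2D B ι) {f : Fin 4 → ℕ} {J : Fin 4 → Type}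
    (o : Fin 4 → V3) (e : ∀ i, Fin (f i) → V3) (q : ∀ i, J i → MvPolynomial (Fin (f i)) ℝ)
    (τ : ∀ i, J i → Bool) : L2D B ι :=
  D.restrict D.G (subset_refl _) (fun i => cell (o i) (e i) (D.X i) (q i) (τ i))
    (fun k g => (D.T k g).filter (fun t => ∀ i, trk i = k →
      InCell (o i) (e i) (q i) (τ i) (lpt (D.p i g) (D.v i g) t)))
    (fun k g hg => filter_subset _ _)
    (fun i g hg t ht => by
      rw [mem_filter] at ht
      unfold cell
      rw [mem_filter]
      exact ⟨D.hX i g hg t ht.1, ht.2 i rfl⟩)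

/-- sign vector of a point -/
noncomputable def sgn {f : ℕ} {J : Type} (o : V3) (e : Fin f → V3)
    (q : J → MvPolynomial (Fin f) ℝ) (x : V3) : J → Bool :=
  fun j => decide (0 < eval (coord o e x) (q j))

theorem sgn_lpt {f : ℕ} {J : Type} (o : V3) (e : Fin f → V3)
    (q : J → MvPolynomial (Fin f) ℝ) (p v : V3) (t : ℝ) : sgn o e q (lpt p v t) =
      fun j => decide (0 < eval (coord o e p + t • fun i => ∑ k, v k * e i k) (q j)) := by
  funext j
  unfold sgn
  rw [coord_lpt]

theorem inCell_sgn {f : ℕ} {J : Type} (o : V3) (e : Fin f → V3)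
    (q : J → MvPolynomial (Fin f) ℝ) (x : V3) (h : ∀ j, eval (coord o e x) (q j) ≠ 0) :
    InCell o e q (sgn o e q x) x := by
  intro j
  refine ⟨h j, ?_⟩
  unfold sgn
  exact decide_eq_true_iff

open scoped Classical in
/-- few parameters hit a wall -/
theorem nonwall_card {B : ℕ} {ι : Type} (D : L2D B ι) {f : Fin 4 → ℕ} {J : Fin 4 → Type}
    [∀ i, Fintype (J i)]
    (o : Fin 4 → V3) (e : ∀ i, Fin (f i) → V3) (q : ∀ i, J i → MvPolynomial (Fin (f i)) ℝ)
    (d : ℕ) (hd : ∑ i, ∑ j, (q i j).totalDegree ≤ d) (k : Fin 2) (g : ι)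
    (hg : ∀ i j, ∃ t : ℝ, eval (coord (o i) (e i) (lpt (D.p i g) (D.v i g) t)) (q i j) ≠ 0) :
    (D.T k g).card ≤ ((D.T k g).filter (fun t => ∀ i, trk i = k → ∀ j,
      eval (coord (o i) (e i) (lpt (D.p i g) (D.v i g) t)) (q i j) ≠ 0)).card + d := by
  set P : ℝ → Prop := fun t => ∀ i, trk i = k → ∀ j,
      eval (coord (o i) (e i) (lpt (D.p i g) (D.v i g) t)) (q i j) ≠ 0 with hP
  have h1 : (D.T k g).card = ((D.T k g).filter P).card + ((D.T k g).filter (fun t => ¬ P t)).card :=
    (Finset.card_filter_add_card_filter_not P).symm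
  rw [h1]
  refine Nat.add_le_add_left ?_ _
  have h2 : (D.T k g).filter (fun t => ¬ P t) ⊆ (Finset.univ : Finset (Σ i, J i)).biUnion
      (fun a => (D.T k g).filter (fun t =>
        eval (coord (o a.1) (e a.1) (lpt (D.p a.1 g) (D.v a.1 g) t)) (q a.1 a.2) = 0)) := by
    intro t ht
    rw [mem_filter] at ht
    have h3 := ht.2
    simp only [hP, not_forall, not_not, exists_prop] at h3
    obtain ⟨i, hi, j, hj⟩ := h3
    rw [mem_biUnion]
    exact ⟨⟨i, j⟩, mem_univ _, mem_filter.2 ⟨ht.1, hj⟩⟩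
  refine le_trans (card_le_card h2) (le_trans card_biUnion_le ?_)
  refine le_trans (le_trans (Finset.sum_le_sum (f := fun a : (Σ i, J i) => _)
    (g := fun a : (Σ i, J i) => (q a.1 a.2).totalDegree) ?_) (le_of_eq ?_)) hd
  · intro a _
    by_contra hlt
    push Not at hlt
    obtain ⟨t, ht⟩ := hg a.1 a.2
    apply ht
    have h4 := few_zeros (q a.1 a.2) _ le_rfl (coord (o a.1) (e a.1) (D.p a.1 g))
      (fun i => ∑ k, D.v a.1 g k * e a.1 i k) _ ?_ hlt t
    · rw [coord_lpt]; exact h4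
    · intro t ht
      rw [mem_filter] at ht
      rw [← coord_lpt]; exact ht.2
  · rw [← Finset.univ_sigma_univ, Finset.sum_sigma]

/-- two pairs of sign vectors as one quadruple -/
def mk4 {J : Fin 4 → Type} (κ : (J 0 → Bool) × (J 1 → Bool)) (l : (J 2 → Bool) × (J 3 → Bool)) :
    ∀ i, J i → Bool := fun i => match i with
  | 0 => κ.1
  | 1 => κ.2
  | 2 => l.1
  | 3 => l.2

theorem mk4_inj {J : Fin 4 → Type} {κ κ' : (J 0 → Bool) × (J 1 → Bool)}
    {l l' : (J 2 → Bool) × (J 3 → Bool)} (h : mk4 κ l = mk4 κ' l') : κ = κ' ∧ l = l' := by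
  have h0 : κ.1 = κ'.1 := congrFun h 0
  have h1 : κ.2 = κ'.2 := congrFun h 1
  have h2 : l.1 = l'.1 := congrFun h 2
  have h3 : l.2 = l'.2 := congrFun h 3
  exact ⟨Prod.ext h0 h1, Prod.ext h2 h3⟩

open scoped Classical in
theorem good_bound {B : ℕ} {ι : Type} (D : L2D B ι) (f : Fin 4 → ℕ) (hf : ∀ i, 1 ≤ f i)
    (J : Fin 4 → Type) [∀ i, Fintype (J i)]
    (o : Fin 4 → V3) (e : ∀ i, Fin (f i) → V3) (hfl : ∀ i, InFlat (o i) (e i) (D.X i))
    (q : ∀ i, J i → MvPolynomial (Fin (f i)) ℝ)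
    (d : ℕ) (hd1 : 1 ≤ d) (hd : ∑ i, ∑ j, (q i j).totalDegree ≤ d)
    (hT : ∀ k, ∀ g ∈ D.G, 8 * (2 * d + 1) ≤ (D.T k g).card)
    (hg : ∀ g ∈ D.G, ∀ i j, ∃ t : ℝ,
      eval (coord (o i) (e i) (lpt (D.p i g) (D.v i g) t)) (q i j) ≠ 0)
    (W : ℝ) (hW0 : 0 ≤ W) (hW : ∀ τ : ∀ i, J i → Bool, (piece D o e q τ).wt ≤ W) :
    D.wt ≤ ((64 * (2 * d + 1) * ((10 * 81 ^ (∑ i, f i - 1)) * d ^ (∑ i, f i - 1)) : ℕ) : ℝ) * W := by
  -- realisable quadruples
  set Q : Finset (∀ i, J i → Bool) := Finset.univ.filter (fun c => ∃ y : ∀ i, Fin (f i) → ℝ,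
      (∀ i j, eval (y i) (q i j) ≠ 0 ∧ (c i j = true ↔ 0 < eval (y i) (q i j))) ∧
      sqd (emb (o 0) (e 0) (y 0)) (emb (o 2) (e 2) (y 2)) =
        sqd (emb (o 1) (e 1) (y 1)) (emb (o 3) (e 3) (y 3))) with hQdef
  have hQ : Q.card ≤ (10 * 81 ^ (∑ i, f i - 1)) * d ^ (∑ i, f i - 1) := by
    refine realis f hf o e (fun i => (hfl i).1) J q d hd1 hd Q ?_
    intro c hc
    exact (mem_filter.1 hc).2
  -- the bound for one element
  have hone : ∀ g ∈ D.G, psi (D.T 0 g).card (D.T 1 g).card ≤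
      64 * (2 * d + 1) * ∑ τ ∈ Q, psi ((piece D o e q τ).T 0 g).card
        ((piece D o e q τ).T 1 g).card := by
    intro g hgG
    set x : Fin 4 → ℝ → V3 := fun i t => lpt (D.p i g) (D.v i g) t with hx
    set T' : Fin 2 → Finset ℝ := fun k => (D.T k g).filter (fun t => ∀ i, trk i = k → ∀ j,
      eval (coord (o i) (e i) (x i t)) (q i j) ≠ 0) with hT'
    have hcard : ∀ k, (D.T k g).card ≤ 2 * (T' k).card := by
      intro k
      have h1 := nonwall_card D o e q d hd k g (hg g hgG)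
      have h2 := hT k g hgG
      have h3 : (D.T k g).card ≤ (T' k).card + d := h1
      omega
    set c0 : ℝ → (J 0 → Bool) × (J 1 → Bool) := fun t =>
      (sgn (o 0) (e 0) (q 0) (x 0 t), sgn (o 1) (e 1) (q 1) (x 1 t)) with hc0
    set c1 : ℝ → (J 2 → Bool) × (J 3 → Bool) := fun t =>
      (sgn (o 2) (e 2) (q 2) (x 2 t), sgn (o 3) (e 3) (q 3) (x 3 t)) with hc1
    have hsum : ∑ i, ∑ j, (q i j).totalDegree = ∑ j, (q 0 j).totalDegree +
        ∑ j, (q 1 j).totalDegree + ∑ j, (q 2 j).totalDegree + ∑ j, (q 3 j).totalDegree := by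
      rw [Fin.sum_univ_four]
    have hc0card : ((T' 0).image c0).card ≤ 2 * d + 1 := by
      have h := crossing (q 0) (q 1) d (by omega) (coord (o 0) (e 0) (D.p 0 g))
        (fun i => ∑ k, D.v 0 g k * e 0 i k) (coord (o 1) (e 1) (D.p 1 g))
        (fun i => ∑ k, D.v 1 g k * e 1 i k) (T' 0) ?_
      · refine le_trans (le_of_eq ?_) h
        congr 1
        refine Finset.image_congr ?_
        intro t ht
        exact Prod.ext (sgn_lpt _ _ _ _ _ _) (sgn_lpt _ _ _ _ _ _)
      · intro t ht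
        have h2 := (mem_filter.1 ht).2
        simp only [hx, coord_lpt] at h2
        exact ⟨h2 0 rfl, h2 1 rfl⟩
    have hc1card : ((T' 1).image c1).card ≤ 2 * d + 1 := by
      have h := crossing (q 2) (q 3) d (by omega) (coord (o 2) (e 2) (D.p 2 g))
        (fun i => ∑ k, D.v 2 g k * e 2 i k) (coord (o 3) (e 3) (D.p 3 g))
        (fun i => ∑ k, D.v 3 g k * e 3 i k) (T' 1) ?_
      · refine le_trans (le_of_eq ?_) h
        congr 1
        refine Finset.image_congr ?_
        intro t ht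
        exact Prod.ext (sgn_lpt _ _ _ _ _ _) (sgn_lpt _ _ _ _ _ _)
      · intro t ht
        have h2 := (mem_filter.1 ht).2
        simp only [hx, coord_lpt] at h2
        exact ⟨h2 2 rfl, h2 3 rfl⟩
    have hps := psi_pieces (D.T 0 g) (T' 0) (D.T 1 g) (T' 1) c0 c1 (filter_subset _ _)
      (filter_subset _ _) (hcard 0) (hcard 1) (2 * d + 1) (by omega) hc0card hc1card
      (hT 0 g hgG) (hT 1 g hgG)
    refine le_trans hps (Nat.mul_le_mul_left _ ?_)
    rw [← Finset.sum_product']
    -- compare with the sum over Q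
    have hle : ∀ z ∈ (T' 0).image c0 ×ˢ (T' 1).image c1,
        psi ((T' 0).filter (fun a => c0 a = z.1)).card ((T' 1).filter (fun b => c1 b = z.2)).card ≤
        psi ((piece D o e q (mk4 z.1 z.2)).T 0 g).card ((piece D o e q (mk4 z.1 z.2)).T 1 g).card := by
      intro z hz
      refine psi_mono (card_le_card ?_) (card_le_card ?_)
      · intro t ht
        rw [mem_filter] at ht
        obtain ⟨ht1, ht2⟩ := ht
        rw [hT', mem_filter] at ht1
        change t ∈ (D.T 0 g).filter _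
        rw [mem_filter]
        refine ⟨ht1.1, ?_⟩
        intro i hi
        have h3 := inCell_sgn (o i) (e i) (q i) (x i t) (ht1.2 i hi)
        have h4 : mk4 z.1 z.2 i = sgn (o i) (e i) (q i) (x i t) := by
          fin_cases i
          · exact (congrArg Prod.fst ht2).symm
          · exact (congrArg Prod.snd ht2).symm
          · exact absurd hi (by decide)
          · exact absurd hi (by decide)
        rw [h4]
        exact h3
      · intro t ht
        rw [mem_filter] at ht
        obtain ⟨ht1, ht2⟩ := ht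
        rw [hT', mem_filter] at ht1
        change t ∈ (D.T 1 g).filter _
        rw [mem_filter]
        refine ⟨ht1.1, ?_⟩
        intro i hi
        have h3 := inCell_sgn (o i) (e i) (q i) (x i t) (ht1.2 i hi)
        have h4 : mk4 z.1 z.2 i = sgn (o i) (e i) (q i) (x i t) := by
          fin_cases i
          · exact absurd hi (by decide)
          · exact absurd hi (by decide)
          · exact (congrArg Prod.fst ht2).symm
          · exact (congrArg Prod.snd ht2).symm
        rw [h4]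
        exact h3
    refine le_trans (Finset.sum_le_sum hle) ?_
    have hinj : Set.InjOn (fun z : ((J 0 → Bool) × (J 1 → Bool)) × ((J 2 → Bool) × (J 3 → Bool)) =>
        mk4 z.1 z.2) ((T' 0).image c0 ×ˢ (T' 1).image c1 : Finset _) := by
      intro z _ z' _ h
      obtain ⟨h1, h2⟩ := mk4_inj h
      exact Prod.ext h1 h2
    rw [← Finset.sum_image (f := fun τ => psi ((piece D o e q τ).T 0 g).card
      ((piece D o e q τ).T 1 g).card) hinj]
    refine Finset.sum_le_sum_of_subset ?_
    intro τ hτ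
    rw [mem_image] at hτ
    obtain ⟨z, hz, rfl⟩ := hτ
    rw [mem_product, mem_image, mem_image] at hz
    obtain ⟨⟨t, ht, htz⟩, ⟨s, hs, hsz⟩⟩ := hz
    rw [hT', mem_filter] at ht hs
    rw [hQdef, mem_filter]
    refine ⟨mem_univ _, fun i => coord (o i) (e i) (x i (if trk i = 0 then t else s)), ?_, ?_⟩
    · intro i
      have hnon : ∀ j, eval (coord (o i) (e i) (x i (if trk i = 0 then t else s))) (q i j) ≠ 0 := by
        by_cases hi : trk i = 0
        · rw [if_pos hi]; exact ht.2 i hi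
        · rw [if_neg hi]
          refine hs.2 i ?_
          have : trk i = 0 ∨ trk i = 1 := by
            unfold trk; split_ifs <;> simp
          exact this.resolve_left hi
      have h3 := inCell_sgn (o i) (e i) (q i) _ hnon
      have h4 : mk4 z.1 z.2 i = sgn (o i) (e i) (q i) (x i (if trk i = 0 then t else s)) := by
        fin_cases i
        · exact (congrArg Prod.fst htz).symm
        · exact (congrArg Prod.snd htz).symm
        · exact (congrArg Prod.fst hsz).symm
        · exact (congrArg Prod.snd hsz).symm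
      rw [h4]
      exact h3
    · have hx0 : emb (o 0) (e 0) (coord (o 0) (e 0) (x 0 t)) = x 0 t :=
        (hfl 0).2 _ (D.hX 0 g hgG t ht.1)
      have hx1 : emb (o 1) (e 1) (coord (o 1) (e 1) (x 1 t)) = x 1 t :=
        (hfl 1).2 _ (D.hX 1 g hgG t ht.1)
      have hx2 : emb (o 2) (e 2) (coord (o 2) (e 2) (x 2 s)) = x 2 s :=
        (hfl 2).2 _ (D.hX 2 g hgG s hs.1)
      have hx3 : emb (o 3) (e 3) (coord (o 3) (e 3) (x 3 s)) = x 3 s :=
        (hfl 3).2 _ (D.hX 3 g hgG s hs.1)
      have e0 : (if trk 0 = 0 then t else s) = t := if_pos rfl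
      have e1 : (if trk 1 = 0 then t else s) = t := if_pos rfl
      have e2 : (if trk 2 = 0 then t else s) = s := if_neg (by decide)
      have e3 : (if trk 3 = 0 then t else s) = s := if_neg (by decide)
      simp only [e0, e1, e2, e3]
      rw [hx0, hx1, hx2, hx3]
      exact D.hiso g hgG t ht.1 s hs.1
  -- sum over all elements
  have h1 : D.wt ≤ ∑ g ∈ D.G, (64 * (2 * d + 1) : ℕ) * ∑ τ ∈ Q,
      (psi ((piece D o e q τ).T 0 g).card ((piece D o e q τ).T 1 g).card : ℝ) := by
    unfold L2D.wt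
    refine Finset.sum_le_sum (fun g hgG => ?_)
    exact_mod_cast hone g hgG
  refine le_trans h1 ?_
  rw [← Finset.mul_sum, Finset.sum_comm]
  have h2 : ∑ τ ∈ Q, ∑ g ∈ D.G,
      (psi ((piece D o e q τ).T 0 g).card ((piece D o e q τ).T 1 g).card : ℝ) ≤ Q.card * W := by
    rw [← nsmul_eq_mul]
    refine Finset.sum_le_card_nsmul _ _ _ (fun τ _ => ?_)
    exact hW τ
  calc ((64 * (2 * d + 1) : ℕ) : ℝ) * ∑ τ ∈ Q, ∑ g ∈ D.G,
        (psi ((piece D o e q τ).T 0 g).card ((piece D o e q τ).T 1 g).card : ℝ)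
      ≤ ((64 * (2 * d + 1) : ℕ) : ℝ) * (Q.card * W) := by
        refine mul_le_mul_of_nonneg_left h2 (by positivity)
    _ ≤ ((64 * (2 * d + 1) : ℕ) : ℝ) *
        ((((10 * 81 ^ (∑ i, f i - 1)) * d ^ (∑ i, f i - 1) : ℕ) : ℝ) * W) := by
        refine mul_le_mul_of_nonneg_left (mul_le_mul_of_nonneg_right ?_ hW0) (by positivity)
        exact_mod_cast hQ
    _ = _ := by push_cast; ring

end Vale.Agent.P054.L2
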