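import Vale.Agent.P054.L2.WallsA
import Vale.Agent.P054.L2.Frames

/-! Block L2, leaf WALLS: lines and planes in zero sets. -/

set_option linter.all false
set_option autoImplicit false

namespace Vale.Agent.P054.L2

open Finset MvPolynomial

private noncomputable def wb670g (p v : V3) : Fin 3 → Polynomial ℝ := fun j => Polynomial.C (p j) + Polynomial.X * Polynomial.C (v j)

private theorem wb670_ev (p v : V3) (F : MvPolynomial (Fin 3) ℝ) (t : ℝ) :
    (aeval (wb670g p v) F).eval t = eval (lpt p v t) F := by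
  have h : (Polynomial.evalRingHom t).comp (aeval (wb670g p v) : MvPolynomial (Fin 3) ℝ →ₐ[ℝ] Polynomial ℝ).toRingHom =
      eval (lpt p v t) := by
    refine MvPolynomial.ringHom_ext (fun a => ?_) (fun j => ?_)
    · simp
    · simp [wb670g, lpt]
      ring
  exact RingHom.congr_fun h F

private theorem wb670_chain (F : MvPolynomial (Fin 3) ℝ) (p v : V3) :
    Polynomial.derivative (aeval (wb670g p v) F) =
      ∑ j, aeval (wb670g p v) (pderiv j F) * Polynomial.C (v j) := by
  induction F using MvPolynomial.induction_on with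
  | C a => simp
  | add F G hF hG => simp only [map_add, hF, hG, add_mul, Finset.sum_add_distrib]
  | mul_X F k hF =>
    rw [map_mul, Polynomial.derivative_mul, hF, aeval_X]
    have h1 : Polynomial.derivative (wb670g p v k) = Polynomial.C (v k) := by
      simp [wb670g]
    have h2 : ∀ j, aeval (wb670g p v) (pderiv j (F * X k)) * Polynomial.C (v j) =
        aeval (wb670g p v) (pderiv j F) * Polynomial.C (v j) * wb670g p v k +
          aeval (wb670g p v) F * (if j = k then Polynomial.C (v k) else 0) := by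
      intro j
      rw [pderiv_mul, map_add, map_mul, map_mul, aeval_X]
      by_cases hj : j = k
      · subst hj
        rw [pderiv_X_self, map_one, if_pos rfl]
        ring
      · rw [pderiv_X_of_ne (fun h => hj h.symm), map_zero, if_neg hj]
        ring
    rw [h1]
    simp only [h2, Finset.sum_add_distrib, ← Finset.mul_sum, ← Finset.sum_mul]
    simp

/-- the tangent plane at a point of a line in the zero set contains the direction of the line -/
private theorem wb670_tan (F : MvPolynomial (Fin 3) ℝ) (p v : V3) (h : ∀ t, eval (lpt p v t) F = 0) :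
    ∑ j, eval p (pderiv j F) * v j = 0 := by
  have h0 : aeval (wb670g p v) F = 0 := by
    refine Polynomial.funext fun s => ?_
    rw [wb670_ev, h s, Polynomial.eval_zero]
  have h1 := wb670_chain F p v
  rw [h0, Polynomial.derivative_zero] at h1
  have h2 := congrArg (Polynomial.eval 0) h1
  have h3 : lpt p v 0 = p := by simp [lpt]
  simp only [Polynomial.eval_zero, Polynomial.eval_finset_sum, Polynomial.eval_mul, Polynomial.eval_C, wb670_ev, h3] at h2
  exact h2.symm

private theorem wb670_deg (L : Fin 3 → MvPolynomial (Fin 2) ℝ) (hL : ∀ i, (L i).totalDegree ≤ 1)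
    (F : MvPolynomial (Fin 3) ℝ) : (aeval L F).totalDegree ≤ F.totalDegree := by
  rw [aeval_def, eval₂_eq]
  refine totalDegree_finsetSum_le fun m hm => ?_
  refine (totalDegree_mul _ _).trans ?_
  rw [algebraMap_eq, totalDegree_C, zero_add]
  refine (totalDegree_finsetProd _ _).trans ?_
  refine le_trans (Finset.sum_le_sum fun i _ => (totalDegree_pow (L i) (m i)).trans
    (Nat.mul_le_mul_left _ (hL i))) ?_
  simp only [mul_one]
  exact le_totalDegree hm

private theorem wb670_par (w w' : Fin 2 → ℝ) (hw : w ≠ 0) (hw' : w' ≠ 0)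
    (h : w 0 * w' 1 - w 1 * w' 0 = 0) : ∃ c : ℝ, c ≠ 0 ∧ w' = c • w := by
  by_cases h0 : w 0 = 0
  · have h1 : w 1 ≠ 0 := by
      intro h1
      apply hw
      funext j
      fin_cases j
      · exact h0
      · exact h1
    have e0 : w' 0 = 0 := by
      rw [h0, zero_mul, zero_sub, neg_eq_zero] at h
      exact (mul_eq_zero.1 h).resolve_left h1
    have e : w' = (w' 1 / w 1) • w := by
      funext j
      fin_cases j
      · simp [e0, h0]
      · simp [div_mul_cancel₀, h1]
    refine ⟨w' 1 / w 1, ?_, e⟩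
    intro hc
    rw [hc, zero_smul] at e
    exact hw' e
  · have e : w' = (w' 0 / w 0) • w := by
      funext j
      fin_cases j
      · simp [div_mul_cancel₀, h0]
      · show w' 1 = w' 0 / w 0 * w 1
        field_simp
        linarith
    refine ⟨w' 0 / w 0, ?_, e⟩
    intro hc
    rw [hc, zero_smul] at e
    exact hw' e

/-- regular points: all lines through `p` in the zero set lie in the tangent plane; if `F` does not
vanish on the tangent plane there are at most `d` of them (use `lines_through_2d` in the tangent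
plane). -/
theorem regular_lines (F : MvPolynomial (Fin 3) ℝ) (d : ℕ)
    (hd : F.totalDegree ≤ d) (p : V3) (hreg : ∃ i, eval p (pderiv i F) ≠ 0)
    (x₀ : V3) (hx₀ : ∑ k, eval p (pderiv k F) * (x₀ k - p k) = 0) (hx₀F : eval x₀ F ≠ 0)
    (L : Finset (Set V3))
    (hL : ∀ l ∈ L, ∃ v : V3, v ≠ 0 ∧ l = lineSet p v ∧ ∀ x ∈ l, eval x F = 0) : L.card ≤ d := by
  classical
  obtain ⟨i0, hi0⟩ := hreg
  have hn : (fun k => eval p (pderiv k F) : V3) ≠ 0 := fun h => hi0 (congrFun h i0)
  obtain ⟨e, he, r, hr, hne⟩ := fr687_perp _ hn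
  have hnk : ∀ k, eval p (pderiv k F) = r * e 2 k := fun k => congrFun hne k
  -- the plane
  set e' : Fin 2 → V3 := fun j => e j.castSucc with he'
  have hpl : ∀ v : V3, ∑ k, eval p (pderiv k F) * v k = 0 →
      v = (∑ k, v k * e' 0 k) • e' 0 + (∑ k, v k * e' 1 k) • e' 1 := by
    intro v hv
    have h1 := fr687_full e he p (p + v)
    have h2 : coord p e (p + v) 2 = 0 := by
      simp only [coord, Pi.add_apply, add_sub_cancel_left]
      simp only [hnk] at hv
      have h3 : ∑ k, r * e 2 k * v k = r * ∑ k, v k * e 2 k := by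
        rw [Finset.mul_sum]
        exact Finset.sum_congr rfl fun k _ => by ring
      rw [h3] at hv
      exact (mul_eq_zero.1 hv).resolve_left hr
    simp only [emb, Fin.sum_univ_three, h2, zero_smul, add_zero] at h1
    have h4 : coord p e (p + v) 0 = ∑ k, v k * e' 0 k := by
      simp only [coord, Pi.add_apply, add_sub_cancel_left]
      rfl
    have h5 : coord p e (p + v) 1 = ∑ k, v k * e' 1 k := by
      simp only [coord, Pi.add_apply, add_sub_cancel_left]
      rfl
    rw [h4, h5] at h1
    exact (add_left_cancel h1).symm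
  set P : Fin 3 → MvPolynomial (Fin 2) ℝ := fun k => C (p k) + X 0 * C (e' 0 k) + X 1 * C (e' 1 k) with hP
  have hPd : ∀ k, (P k).totalDegree ≤ 1 := by
    intro k
    simp only [hP]
    refine (totalDegree_add _ _).trans (max_le ((totalDegree_add _ _).trans (max_le ?_ ?_)) ?_)
    · rw [totalDegree_C]
      exact Nat.zero_le _
    · refine (totalDegree_mul _ _).trans ?_
      rw [totalDegree_C]
      have := totalDegree_X (R := ℝ) (0 : Fin 2)
      omega
    · refine (totalDegree_mul _ _).trans ?_
      rw [totalDegree_C]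
      have := totalDegree_X (R := ℝ) (1 : Fin 2)
      omega
  have hPe : ∀ y : Fin 2 → ℝ, eval y (aeval P F) = eval (p + (y 0 • e' 0 + y 1 • e' 1)) F := by
    intro y
    have h : (eval y).comp (aeval P : MvPolynomial (Fin 3) ℝ →ₐ[ℝ] MvPolynomial (Fin 2) ℝ).toRingHom =
        eval (p + (y 0 • e' 0 + y 1 • e' 1)) := by
      refine MvPolynomial.ringHom_ext (fun a => ?_) (fun j => ?_)
      · simp
      · simp [hP]
        ring
    exact RingHom.congr_fun h F
  have hF2 : aeval P F ≠ 0 := by
    intro h0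
    apply hx₀F
    have h1 := hpl (fun k => x₀ k - p k) hx₀
    have h2 := hPe ![∑ k, (x₀ k - p k) * e' 0 k, ∑ k, (x₀ k - p k) * e' 1 k]
    rw [h0, map_zero] at h2
    have h3 : p + ((![∑ k, (x₀ k - p k) * e' 0 k, ∑ k, (x₀ k - p k) * e' 1 k] : Fin 2 → ℝ) 0 • e' 0 +
        (![∑ k, (x₀ k - p k) * e' 0 k, ∑ k, (x₀ k - p k) * e' 1 k] : Fin 2 → ℝ) 1 • e' 1) = x₀ := by
      change p + ((∑ k, (x₀ k - p k) * e' 0 k) • e' 0 + (∑ k, (x₀ k - p k) * e' 1 k) • e' 1) = x₀
      rw [← h1]
      funext k
      simp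
    rw [h3] at h2
    exact h2.symm
  have hd2 : (aeval P F).totalDegree ≤ d := (wb670_deg P hPd F).trans hd
  rcases L.eq_empty_or_nonempty with h0 | ⟨l0, hl0⟩
  · rw [h0]
    simp
  haveI : Nonempty V3 := ⟨0⟩
  choose! v hv hlv hz using hL
  have hvt : ∀ l ∈ L, ∀ t, eval (lpt p (v l) t) F = 0 := by
    intro l hl t
    exact hz l hl _ ((Set.ext_iff.1 (hlv l hl) _).2 ⟨t, rfl⟩)
  set w : Set V3 → (Fin 2 → ℝ) := fun l => ![∑ k, v l k * e' 0 k, ∑ k, v l k * e' 1 k] with hw
  have hvw : ∀ l ∈ L, v l = w l 0 • e' 0 + w l 1 • e' 1 := fun l hl =>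
    hpl (v l) (wb670_tan F p (v l) (hvt l hl))
  have hw0 : ∀ l ∈ L, w l ≠ 0 := by
    intro l hl h
    apply hv l hl
    rw [hvw l hl, h]
    simp
  have hdet : ∀ l ∈ L, ∀ l' ∈ L, l ≠ l' → w l 0 * w l' 1 - w l 1 * w l' 0 ≠ 0 := by
    intro l hl l' hl' hne h
    obtain ⟨c, hc, h'⟩ := wb670_par _ _ (hw0 l hl) (hw0 l' hl') h
    have h1 : v l' = c • v l := by
      rw [hvw l' hl', hvw l hl, h']
      simp [smul_smul, smul_add]
    apply hne
    rw [hlv l hl, hlv l' hl', h1]
    ext z
    constructor
    · rintro ⟨t, rfl⟩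
      exact ⟨t / c, by simp [lpt, smul_smul, div_mul_cancel₀ _ hc]⟩
    · rintro ⟨t, rfl⟩
      exact ⟨t * c, by simp [lpt, smul_smul]⟩
  have hinj : Set.InjOn w (L : Set (Set V3)) := by
    intro l hl l' hl' h
    by_contra hne
    apply hdet l hl l' hl' hne
    rw [h]
    ring
  rw [← Finset.card_image_of_injOn hinj]
  refine lines_through_2d (aeval P F) hF2 d hd2 0 (L.image w) ?_ ?_ ?_
  · intro y hy
    obtain ⟨l, hl, rfl⟩ := Finset.mem_image.1 hy
    exact hw0 l hl
  · intro y hy y' hy' hne
    obtain ⟨l, hl, rfl⟩ := Finset.mem_image.1 hy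
    obtain ⟨l', hl', rfl⟩ := Finset.mem_image.1 hy'
    exact hdet l hl l' hl' (fun h => hne (by rw [h]))
  · intro y hy t
    obtain ⟨l, hl, rfl⟩ := Finset.mem_image.1 hy
    rw [hPe, ← hvt l hl t]
    congr 2
    funext k
    have h1 := congrFun (hvw l hl) k
    simp only [lpt, Pi.add_apply, Pi.smul_apply, smul_eq_mul, Pi.zero_apply, zero_add] at h1 ⊢
    rw [h1]
    ring

end Vale.Agent.P054.L2
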