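import Vale.Agent.P054.L2.LineRed
import Vale.Agent.P054.L2.Walls
import Vale.Agent.P054.L2.Crossing
import Vale.Agent.P054.L2.Pieces

/-! Block L2, leaf WALLRED, case of space (helper670). -/

set_option linter.all false
set_option autoImplicit false

namespace Vale.Agent.P054.L2

open Finset MvPolynomial

private theorem wh670_degree (F : MvPolynomial (Fin 3) ℝ) (k : Fin 3) (d : ℕ) (hd : F.totalDegree ≤ d + 1) :
    (pderiv k F).totalDegree ≤ d := by
  refine Finset.sup_le fun m hm => ?_
  rw [MvPolynomial.mem_support_iff, coeff_pderiv] at hm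
  have h1 : m + Finsupp.single k 1 ∈ F.support := by
    rw [MvPolynomial.mem_support_iff]
    intro h0
    apply hm
    simp [h0]
  have h2 := le_totalDegree h1
  rw [Finsupp.sum_add_index' (fun _ => rfl) (fun _ _ _ => rfl), Finsupp.sum_single_index rfl] at h2
  omega

private theorem wh670_const (F : MvPolynomial (Fin 3) ℝ) (h : ∀ k, pderiv k F = 0) :
    F.totalDegree = 0 := by
  refine Nat.le_zero.1 (Finset.sup_le fun m hm => ?_)
  have hm0 : m = 0 := by
    by_contra hne
    obtain ⟨k, hk⟩ : ∃ k, m k ≠ 0 := by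
      by_contra hcon
      push Not at hcon
      exact hne (Finsupp.ext hcon)
    have h1 := coeff_pderiv (i := k) F (m - Finsupp.single k 1)
    have h2 : m - Finsupp.single k 1 + Finsupp.single k 1 = m := by
      refine tsub_add_cancel_of_le ?_
      rw [Finsupp.single_le_iff]
      omega
    rw [h k, coeff_zero, h2] at h1
    rw [MvPolynomial.mem_support_iff] at hm
    have h3 : ((m - Finsupp.single k 1 : Fin 3 →₀ ℕ) k : ℝ) + 1 ≠ 0 := by positivity
    rcases mul_eq_zero.1 h1.symm with h4 | h4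
    · exact hm h4
    · exact h3 (by exact_mod_cast h4)
  subst hm0
  simp

private theorem wh670_evalC (F : MvPolynomial (Fin 3) ℝ) (hF : F ≠ 0) (h : F.totalDegree = 0) (x : V3) :
    eval x F ≠ 0 := by
  rw [totalDegree_eq_zero_iff_eq_C] at h
  intro h0
  rw [h, eval_C] at h0
  apply hF
  rw [h, h0, C_0]

private noncomputable def wh670g (p v : V3) : Fin 3 → Polynomial ℝ := fun j => Polynomial.C (p j) + Polynomial.X * Polynomial.C (v j)

private theorem wh670_ev (p v : V3) (F : MvPolynomial (Fin 3) ℝ) (t : ℝ) :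
    (aeval (wh670g p v) F).eval t = eval (lpt p v t) F := by
  have h : (Polynomial.evalRingHom t).comp (aeval (wh670g p v) : MvPolynomial (Fin 3) ℝ →ₐ[ℝ] Polynomial ℝ).toRingHom =
      eval (lpt p v t) := by
    refine MvPolynomial.ringHom_ext (fun a => ?_) (fun j => ?_)
    · simp
    · simp [wh670g, lpt]
      ring
  exact RingHom.congr_fun h F

private theorem wh670_chain (F : MvPolynomial (Fin 3) ℝ) (p v : V3) :
    Polynomial.derivative (aeval (wh670g p v) F) =
      ∑ j, aeval (wh670g p v) (pderiv j F) * Polynomial.C (v j) := by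
  induction F using MvPolynomial.induction_on with
  | C a => simp
  | add F G hF hG => simp only [map_add, hF, hG, add_mul, Finset.sum_add_distrib]
  | mul_X F k hF =>
    rw [map_mul, Polynomial.derivative_mul, hF, aeval_X]
    have h1 : Polynomial.derivative (wh670g p v k) = Polynomial.C (v k) := by
      simp [wh670g]
    have h2 : ∀ j, aeval (wh670g p v) (pderiv j (F * X k)) * Polynomial.C (v j) =
        aeval (wh670g p v) (pderiv j F) * Polynomial.C (v j) * wh670g p v k +
          aeval (wh670g p v) F * (if j = k then Polynomial.C (v k) else 0) := by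
      intro j
      rw [pderiv_mul, map_add, map_mul, map_mul, aeval_X]
      by_cases hj : j = k
      · subst hj
        rw [pderiv_X_self, map_one, if_pos rfl]
        ring
      · rw [pderiv_X_of_ne (fun h => hj h.symm), map_zero, if_neg hj]
        ring
    rw [h1]
    simp only [h2, Finset.sum_add_distrib, ← Finset.mul_sum, ← Finset.sum_mul]
    simp

/-- the tangent plane at a point of a line in the zero set contains the direction of the line -/
private theorem wh670_tan (F : MvPolynomial (Fin 3) ℝ) (p v : V3) (h : ∀ t, eval (lpt p v t) F = 0) (t : ℝ) :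
    ∑ j, eval (lpt p v t) (pderiv j F) * v j = 0 := by
  have h0 : aeval (wh670g p v) F = 0 := by
    refine Polynomial.funext fun s => ?_
    rw [wh670_ev, h s, Polynomial.eval_zero]
  have h1 := wh670_chain F p v
  rw [h0, Polynomial.derivative_zero] at h1
  have h2 := congrArg (Polynomial.eval t) h1
  simp only [Polynomial.eval_zero, Polynomial.eval_finset_sum, Polynomial.eval_mul, Polynomial.eval_C, wh670_ev] at h2
  exact h2.symm


/-- the weight of the elements with one property -/
private theorem wh670_N {B : ℕ} {ι : Type} (D : L2D B ι) (X' : Fin 4 → Finset V3) (h : ∀ j, X' j ⊆ D.X j) :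
    ((∏ j, (X' j).card : ℕ) : ℝ) ≤ (D.N : ℝ) := by
  unfold L2D.N
  exact_mod_cast Finset.prod_le_prod' fun j _ => Finset.card_le_card (h j)

open scoped Classical in
/-- elements with line in one plane -/
private theorem wh670_plane (B : ℕ) (ε : ℝ) (hε : 0 < ε) (f : Fin 4 → ℕ) (i : Fin 4) (C : ℝ) (hC : 0 ≤ C)
    (hcl2 : Claim B (Function.update f i 2) ε C) {ι : Type} (D : L2D B ι)
    (hflat : ∀ j, j ≠ i → OnFlat (f j) (D.X j)) (G' : Finset ι) (hG' : G' ⊆ D.G) (Q : Set V3) (n : V3) (c : ℝ)
    (hn : n ≠ 0) (hQ : Q = {x | ∑ k, n k * x k = c})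
    (hl : ∀ g ∈ G', ∀ t, lpt (D.p i g) (D.v i g) t ∈ Q) :
    ∑ g ∈ G', (psi (D.T 0 g).card (D.T 1 g).card : ℝ) ≤ C * (D.N : ℝ) ^ (1 + ε) := by
  set X' : Fin 4 → Finset V3 := Function.update D.X i ((D.X i).filter (fun x => x ∈ Q)) with hX'
  have hX'i : X' i = (D.X i).filter (fun x => x ∈ Q) := by simp [hX']
  have hX'j : ∀ j, j ≠ i → X' j = D.X j := fun j hj => by simp [hX', hj]
  have hX's : ∀ j, X' j ⊆ D.X j := by
    intro j
    by_cases hj : j = i
    · subst hj
      rw [hX'i]
      exact Finset.filter_subset _ _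
    · rw [hX'j j hj]
  let D' : L2D B ι := D.restrict G' hG' X' D.T (fun k g _ => Finset.Subset.refl _) (by
      intro j g hg t ht
      have h1 := D.hX j g (hG' hg) t ht
      by_cases hj : j = i
      · subst hj
        rw [hX'i, Finset.mem_filter]
        exact ⟨h1, hl g hg t⟩
      · rw [hX'j j hj]
        exact h1)
  have h2 := hcl2 ι D' (by
    intro j
    by_cases hj : j = i
    · subst hj
      rw [Function.update_self]
      change OnFlat 2 (X' j)
      rw [hX'i]
      refine onFlat_plane n hn c _ ?_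
      intro x hx
      have := (Finset.mem_filter.1 hx).2
      rw [hQ] at this
      exact this
    · rw [Function.update_of_ne hj]
      change OnFlat (f j) (X' j)
      rw [hX'j j hj]
      exact hflat j hj)
  have h3 : D'.wt = ∑ g ∈ G', (psi (D.T 0 g).card (D.T 1 g).card : ℝ) := rfl
  rw [← h3]
  refine h2.trans (mul_le_mul_of_nonneg_left (Real.rpow_le_rpow (Nat.cast_nonneg _) (wh670_N D X' hX's) (by positivity)) hC)

open scoped Classical in
/-- elements with line in some plane of the zero set -/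
private theorem wh670_planes (B : ℕ) (ε : ℝ) (hε : 0 < ε) (f : Fin 4 → ℕ) (i : Fin 4) (C : ℝ) (hC : 0 ≤ C)
    (hcl2 : Claim B (Function.update f i 2) ε C) {ι : Type} (D : L2D B ι)
    (hflat : ∀ j, j ≠ i → OnFlat (f j) (D.X j)) (G' : Finset ι) (hG' : G' ⊆ D.G)
    (F : MvPolynomial (Fin 3) ℝ) (hF : F ≠ 0) (d : ℕ) (hd : F.totalDegree ≤ d)
    (hl : ∀ g ∈ G', ∃ (n : V3) (c : ℝ), n ≠ 0 ∧ (∀ x : V3, ∑ k, n k * x k = c → eval x F = 0) ∧
      ∀ t, ∑ k, n k * (lpt (D.p i g) (D.v i g) t) k = c) :
    ∑ g ∈ G', (psi (D.T 0 g).card (D.T 1 g).card : ℝ) ≤ d * (C * (D.N : ℝ) ^ (1 + ε)) := by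
  choose! n c hn hz hc using hl
  set Q : ι → Set V3 := fun g => {x | ∑ k, n g k * x k = c g} with hQ
  have h1 : ∑ g ∈ G', (psi (D.T 0 g).card (D.T 1 g).card : ℝ) = ∑ q ∈ G'.image Q,
      ∑ g ∈ G'.filter (fun g => Q g = q), (psi (D.T 0 g).card (D.T 1 g).card : ℝ) :=
    (Finset.sum_fiberwise_of_maps_to (fun g hg => Finset.mem_image_of_mem _ hg) _).symm
  rw [h1]
  have h2 : (G'.image Q).card ≤ d := by
    refine planes_count F hF d hd _ ?_
    intro q hq
    obtain ⟨g, hg, rfl⟩ := Finset.mem_image.1 hq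
    exact ⟨n g, c g, hn g hg, rfl, fun x hx => hz g hg x hx⟩
  have h3 : 0 ≤ C * (D.N : ℝ) ^ (1 + ε) := mul_nonneg hC (Real.rpow_nonneg (Nat.cast_nonneg _) _)
  refine (Finset.sum_le_card_nsmul _ _ (C * (D.N : ℝ) ^ (1 + ε)) ?_).trans ?_
  · intro q hq
    obtain ⟨g, hg, rfl⟩ := Finset.mem_image.1 hq
    refine wh670_plane B ε hε f i C hC hcl2 D hflat _ ((Finset.filter_subset _ _).trans hG') (Q g) (n g) (c g) (hn g hg) rfl ?_
    intro g' hg' t
    rw [Finset.mem_filter] at hg'
    rw [← hg'.2]
    exact hc g' hg'.1 t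
  · rw [nsmul_eq_mul]
    exact mul_le_mul_of_nonneg_right (by exact_mod_cast h2) h3

open scoped Classical in
/-- elements with regular points -/
private theorem wh670_reg (B : ℕ) (ε : ℝ) (hε : 0 < ε) (f : Fin 4 → ℕ) (i : Fin 4) (C : ℝ) (hC : 0 ≤ C)
    (hcl1 : Claim B (Function.update f i 1) ε C) {ι : Type} (D : L2D B ι)
    (hflat : ∀ j, j ≠ i → OnFlat (f j) (D.X j))
    (F : MvPolynomial (Fin 3) ℝ) (hF : F ≠ 0) (d : ℕ) (hd : F.totalDegree ≤ d)
    (hG : ∀ g ∈ D.G, ∀ t : ℝ, eval (lpt (D.p i g) (D.v i g) t) F = 0)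
    (hpl : ∀ g ∈ D.G, ∀ (n : V3) (c : ℝ), n ≠ 0 → (∀ t, ∑ k, n k * (lpt (D.p i g) (D.v i g) t) k = c) →
      ∃ x : V3, ∑ k, n k * x k = c ∧ eval x F ≠ 0)
    (hr : ∀ g ∈ D.G, ∃ k t, eval (lpt (D.p i g) (D.v i g) t) (pderiv k F) ≠ 0)
    (hT : ∀ g ∈ D.G, 2 * d + 4 ≤ (D.T (trk i) g).card) :
    D.wt ≤ 4 * (C * d * (D.N : ℝ) ^ (1 + ε)) := by
  set R : V3 → Prop := fun x => ∃ k, eval x (pderiv k F) ≠ 0 with hR
  set T' : Fin 2 → ι → Finset ℝ := fun k g => if k = trk i then
    (D.T k g).filter (fun t => R (lpt (D.p i g) (D.v i g) t)) else D.T k g with hT'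
  have hT's : ∀ k, ∀ g ∈ D.G, T' k g ⊆ D.T k g := by
    intro k g _
    simp only [hT']
    split_ifs
    · exact Finset.filter_subset _ _
    · exact Finset.Subset.refl _
  set X' : Fin 4 → Finset V3 := Function.update D.X i ((D.X i).filter
    (fun x => ∃ g ∈ D.G, ∃ t, x = lpt (D.p i g) (D.v i g) t ∧ R x)) with hX'
  have hX'i : X' i = (D.X i).filter (fun x => ∃ g ∈ D.G, ∃ t, x = lpt (D.p i g) (D.v i g) t ∧ R x) := by simp [hX']
  have hX'j : ∀ j, j ≠ i → X' j = D.X j := fun j hj => by simp [hX', hj]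
  have hX's : ∀ j, X' j ⊆ D.X j := by
    intro j
    by_cases hj : j = i
    · subst hj
      rw [hX'i]
      exact Finset.filter_subset _ _
    · rw [hX'j j hj]
  let D' : L2D B ι := D.restrict D.G (Finset.Subset.refl _) X' T' hT's (by
      intro j g hg t ht
      have h1 := D.hX j g hg t (hT's _ g hg ht)
      by_cases hj : j = i
      · subst hj
        rw [hX'i, Finset.mem_filter]
        refine ⟨h1, g, hg, t, rfl, ?_⟩
        simp only [hT', if_true] at ht
        exact (Finset.mem_filter.1 ht).2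
      · rw [hX'j j hj]
        exact h1)
  have h2 : D'.wt ≤ C * d * (D'.N : ℝ) ^ (1 + ε) := by
    refine line_red B ε hε f i C hC hcl1 d D' (fun j hj => ?_) ?_
    · change OnFlat (f j) (X' j)
      rw [hX'j j hj]
      exact hflat j hj
    · intro x hx
      change x ∈ X' i at hx
      rw [hX'i, Finset.mem_filter] at hx
      obtain ⟨-, g, hg, t, hxt, k, hk⟩ := hx
      have hn : (fun j => eval x (pderiv j F) : V3) ≠ 0 := fun h => hk (congrFun h k)
      obtain ⟨x₀, h3, h4⟩ := hpl g hg (fun j => eval x (pderiv j F)) (∑ j, eval x (pderiv j F) * x j) hn (by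
        intro s
        have h5 := wh670_tan F (D.p i g) (D.v i g) (hG g hg) t
        rw [← hxt] at h5
        have h6 : ∀ j, (lpt (D.p i g) (D.v i g) s) j = x j + (s - t) * D.v i g j := by
          intro j
          rw [hxt]
          simp only [lpt, Pi.add_apply, Pi.smul_apply, smul_eq_mul]
          ring
        simp only [h6, mul_add, Finset.sum_add_distrib]
        have h7 : ∑ j, eval x (pderiv j F) * ((s - t) * D.v i g j) = (s - t) * ∑ j, eval x (pderiv j F) * D.v i g j := by
          rw [Finset.mul_sum]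
          exact Finset.sum_congr rfl fun j _ => by ring
        rw [h7, h5, mul_zero, add_zero])
      refine regular_lines F d hd x ⟨k, hk⟩ x₀ ?_ h4 _ ?_
      · simp only [mul_sub, Finset.sum_sub_distrib]
        rw [h3, sub_self]
      · intro l hl
        rw [Finset.mem_filter, Finset.mem_image] at hl
        obtain ⟨⟨g', hg', rfl⟩, hxl⟩ := hl
        change g' ∈ D.G at hg'
        change x ∈ lineSet (D.p i g') (D.v i g') at hxl
        obtain ⟨s, hs⟩ := hxl
        refine ⟨D.v i g', D.hv i g' hg', ?_, ?_⟩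
        · change lineSet (D.p i g') (D.v i g') = _
          ext z
          constructor
          · rintro ⟨s', rfl⟩
            refine ⟨s' - s, ?_⟩
            rw [← hs]
            simp only [lpt, sub_smul]
            abel
          · rintro ⟨s', rfl⟩
            refine ⟨s' + s, ?_⟩
            rw [← hs]
            simp only [lpt, add_smul]
            abel
        · rintro z ⟨s', rfl⟩
          exact hG g' hg' s'
  have hN : (D'.N : ℝ) ≤ D.N := wh670_N D X' hX's
  have h8 : D'.wt ≤ C * d * (D.N : ℝ) ^ (1 + ε) :=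
    h2.trans (mul_le_mul_of_nonneg_left (Real.rpow_le_rpow (Nat.cast_nonneg _) hN (by positivity)) (by positivity))
  have h9 : ∀ g ∈ D.G, (psi (D.T 0 g).card (D.T 1 g).card : ℝ) ≤ 4 * (psi (T' 0 g).card (T' 1 g).card : ℝ) := by
    intro g hg
    -- few singular parameters
    have h10 : (D.T (trk i) g).card ≤ (T' (trk i) g).card + d := by
      obtain ⟨k, t, hkt⟩ := hr g hg
      have h11 : ((D.T (trk i) g).filter (fun t => ¬ R (lpt (D.p i g) (D.v i g) t))).card ≤ d := by
        by_contra hcon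
        push Not at hcon
        refine hkt (few_zeros (pderiv k F) d ?_ (D.p i g) (D.v i g) _ ?_ hcon t)
        · rcases Nat.eq_zero_or_pos F.totalDegree with h0 | h0
          · rw [totalDegree_eq_zero_iff_eq_C] at h0
            rw [h0, pderiv_C, totalDegree_zero]
            exact Nat.zero_le _
          · have := wh670_degree F k (F.totalDegree - 1) (by omega)
            omega
        · intro t ht
          have := (Finset.mem_filter.1 ht).2
          simp only [hR, not_exists, not_not] at this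
          exact this k
      have h12 := Finset.card_filter_add_card_filter_not (s := D.T (trk i) g) (fun t => R (lpt (D.p i g) (D.v i g) t))
      have h13 : (T' (trk i) g) = (D.T (trk i) g).filter (fun t => R (lpt (D.p i g) (D.v i g) t)) := by
        simp [hT']
      rw [h13]
      omega
    have h14 := hT g hg
    have h15 : ∀ k, k ≠ trk i → T' k g = D.T k g := by
      intro k hk
      simp [hT', hk]
    have h16 : psi (D.T 0 g).card (D.T 1 g).card ≤ 2 ^ 2 * psi (T' 0 g).card (T' 1 g).card := by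
      rcases Fin.exists_fin_two.1 ⟨trk i, rfl⟩ with h | h
      · rw [h] at h10 h14 h15
        rw [h15 1 (by decide)]
        exact psi_scale (by norm_num) (by omega) (by omega)
      · rw [h] at h10 h14 h15
        rw [h15 0 (by decide), psi_comm, psi_comm (D.T 0 g).card]
        exact psi_scale (by norm_num) (by omega) (by omega)
    exact_mod_cast h16
  refine (Finset.sum_le_sum h9).trans ?_
  rw [← Finset.mul_sum]
  exact mul_le_mul_of_nonneg_left h8 (by norm_num)

/-- the part of the weight of some elements -/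
private theorem wh670_part {B : ℕ} {ι : Type} (D : L2D B ι) (G' : Finset ι) (hG' : G' ⊆ D.G) (M : ℝ)
    (h : ∀ D' : L2D B ι, D'.G = G' → D'.X = D.X → D'.p = D.p → D'.v = D.v → D'.T = D.T → D'.wt ≤ M) :
    ∑ g ∈ G', (psi (D.T 0 g).card (D.T 1 g).card : ℝ) ≤ M :=
  h (D.restrict G' hG' D.X D.T (fun _ _ _ => Finset.Subset.refl _)
    (fun j g hg t ht => D.hX j g (hG' hg) t ht)) rfl rfl rfl rfl rfl

open scoped Classical in
/-- case of space -/
theorem wall_red_three (B : ℕ) (ε : ℝ) (hε : 0 < ε) (f : Fin 4 → ℕ) (hf : ∀ j, 1 ≤ f j)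
    (i : Fin 4) (C : ℝ) (hC : 0 ≤ C)
    (hcl1 : Claim B (Function.update f i 1) ε C) (hcl2 : Claim B (Function.update f i 2) ε C)
    (hbase : ∀ K : ℕ, ∃ C' : ℝ, 0 ≤ C' ∧ ∀ (ι : Type) (D : L2D B ι),
      (∀ g ∈ D.G, (D.T 0 g).card < K ∨ (D.T 1 g).card < K) → D.wt ≤ C' * (D.N : ℝ) ^ (1 + ε))
    (d : ℕ) : ∃ C' : ℝ, 0 ≤ C' ∧ ∀ (ι : Type) (D : L2D B ι)
      (hflat : ∀ j, j ≠ i → OnFlat (f j) (D.X j))
      (F : MvPolynomial (Fin 3) ℝ) (hF : F ≠ 0) (hd : F.totalDegree ≤ d)
      (hG : ∀ g ∈ D.G, ∀ t : ℝ, eval (lpt (D.p i g) (D.v i g) t) F = 0),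
      D.wt ≤ C' * (D.N : ℝ) ^ (1 + ε) := by
  induction d with
  | zero =>
    refine ⟨0, le_rfl, ?_⟩
    intro ι D hflat F hF hd hG
    have h0 : D.G = ∅ := by
      rw [Finset.eq_empty_iff_forall_notMem]
      intro g hg
      exact wh670_evalC F hF (Nat.le_zero.1 hd) _ (hG g hg 0)
    have h1 : D.wt = 0 := by
      unfold L2D.wt
      rw [h0, Finset.sum_empty]
    rw [h1, zero_mul]
  | succ d ih =>
    obtain ⟨C₁, hC₁, ih⟩ := ih
    obtain ⟨C₂, hC₂, hb⟩ := hbase (2 * (d + 1) + 4)
    refine ⟨((d + 1 : ℕ) : ℝ) * C + (C₂ + 4 * (C * ((d + 1 : ℕ) : ℝ))) + 3 * C₁, by positivity, ?_⟩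
    intro ι D hflat F hF hd hG
    have hNN : 0 ≤ (D.N : ℝ) ^ (1 + ε) := Real.rpow_nonneg (Nat.cast_nonneg _) _
    set P1 : ι → Prop := fun g => ∃ (n : V3) (c : ℝ), n ≠ 0 ∧ (∀ x : V3, ∑ k, n k * x k = c → eval x F = 0) ∧
      ∀ t, ∑ k, n k * (lpt (D.p i g) (D.v i g) t) k = c with hP1
    set P2 : ι → Prop := fun g => ∃ k t, eval (lpt (D.p i g) (D.v i g) t) (pderiv k F) ≠ 0 with hP2
    set P3 : ι → Prop := fun g => (D.T (trk i) g).card < 2 * (d + 1) + 4 with hP3
    have hs1 : ∑ g ∈ D.G.filter P1, (psi (D.T 0 g).card (D.T 1 g).card : ℝ) ≤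
        ((d + 1 : ℕ) : ℝ) * (C * (D.N : ℝ) ^ (1 + ε)) :=
      wh670_planes B ε hε f i C hC hcl2 D hflat _ (Finset.filter_subset _ _) F hF (d + 1) hd
        (fun g hg => (Finset.mem_filter.1 hg).2)
    have hs2 : ∑ g ∈ (D.G.filter (fun g => ¬ P1 g)).filter P3, (psi (D.T 0 g).card (D.T 1 g).card : ℝ) ≤
        C₂ * (D.N : ℝ) ^ (1 + ε) := by
      refine wh670_part D _ ((Finset.filter_subset _ _).trans (Finset.filter_subset _ _)) _ ?_
      intro D' hG' hX' _ _ hT'
      have h1 := hb ι D' (by
        intro g hg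
        rw [hG'] at hg
        have h2 := (Finset.mem_filter.1 hg).2
        rw [hT']
        simp only [hP3] at h2
        rcases Fin.exists_fin_two.1 ⟨trk i, rfl⟩ with h | h
        · rw [h] at h2
          exact Or.inl h2
        · rw [h] at h2
          exact Or.inr h2)
      have h3 : D'.N = D.N := by
        unfold L2D.N
        rw [hX']
      rwa [h3] at h1
    have hs3 : ∑ g ∈ ((D.G.filter (fun g => ¬ P1 g)).filter (fun g => ¬ P3 g)).filter P2,
        (psi (D.T 0 g).card (D.T 1 g).card : ℝ) ≤ 4 * (C * ((d + 1 : ℕ) : ℝ) * (D.N : ℝ) ^ (1 + ε)) := by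
      refine wh670_part D _ ((Finset.filter_subset _ _).trans ((Finset.filter_subset _ _).trans
        (Finset.filter_subset _ _))) _ ?_
      intro D' hG' hX' hp' hv' hT'
      have hm : ∀ g ∈ D'.G, g ∈ D.G ∧ ¬ P1 g ∧ ¬ P3 g ∧ P2 g := by
        intro g hg
        rw [hG'] at hg
        simp only [Finset.mem_filter] at hg
        exact ⟨hg.1.1.1, hg.1.1.2, hg.1.2, hg.2⟩
      have h1 := wh670_reg B ε hε f i C hC hcl1 D' (by rw [hX']; exact hflat) F hF (d + 1) hd
        (by
          intro g hg t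
          rw [hp', hv']
          exact hG g (hm g hg).1 t)
        (by
          intro g hg n c hn hc
          rw [hp', hv'] at hc
          by_contra hcon
          push Not at hcon
          exact (hm g hg).2.1 ⟨n, c, hn, hcon, hc⟩)
        (by
          intro g hg
          rw [hp', hv']
          exact (hm g hg).2.2.2)
        (by
          intro g hg
          rw [hT']
          exact not_lt.1 (hm g hg).2.2.1)
      have h3 : D'.N = D.N := by
        unfold L2D.N
        rw [hX']
      rwa [h3] at h1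
    have hs4 : ∑ g ∈ ((D.G.filter (fun g => ¬ P1 g)).filter (fun g => ¬ P3 g)).filter (fun g => ¬ P2 g),
        (psi (D.T 0 g).card (D.T 1 g).card : ℝ) ≤ C₁ * (D.N : ℝ) ^ (1 + ε) := by
      by_cases hall : ∀ k, pderiv k F = 0
      · have h0 : D.G = ∅ := by
          rw [Finset.eq_empty_iff_forall_notMem]
          intro g hg
          exact wh670_evalC F hF (wh670_const F hall) _ (hG g hg 0)
        rw [h0]
        simp only [Finset.filter_empty, Finset.sum_empty]
        positivity
      · push Not at hall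
        obtain ⟨k, hk⟩ := hall
        refine wh670_part D _ ((Finset.filter_subset _ _).trans ((Finset.filter_subset _ _).trans
          (Finset.filter_subset _ _))) _ ?_
        intro D' hG' hX' hp' hv' hT'
        have h1 := ih ι D' (by rw [hX']; exact hflat) (pderiv k F) hk (wh670_degree F k d hd) (by
          intro g hg t
          rw [hG'] at hg
          have h2 := (Finset.mem_filter.1 hg).2
          simp only [hP2, not_exists, not_not] at h2
          rw [hp', hv']
          exact h2 k t)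
        have h3 : D'.N = D.N := by
          unfold L2D.N
          rw [hX']
        rwa [h3] at h1
    have hsum : D.wt = ∑ g ∈ D.G.filter P1, (psi (D.T 0 g).card (D.T 1 g).card : ℝ) +
        (∑ g ∈ (D.G.filter (fun g => ¬ P1 g)).filter P3, (psi (D.T 0 g).card (D.T 1 g).card : ℝ) +
        (∑ g ∈ ((D.G.filter (fun g => ¬ P1 g)).filter (fun g => ¬ P3 g)).filter P2,
          (psi (D.T 0 g).card (D.T 1 g).card : ℝ) +
        ∑ g ∈ ((D.G.filter (fun g => ¬ P1 g)).filter (fun g => ¬ P3 g)).filter (fun g => ¬ P2 g),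
          (psi (D.T 0 g).card (D.T 1 g).card : ℝ))) := by
      rw [Finset.sum_filter_add_sum_filter_not, Finset.sum_filter_add_sum_filter_not,
        Finset.sum_filter_add_sum_filter_not]
      rfl
    rw [hsum]
    have h5 : 0 ≤ C₁ * (D.N : ℝ) ^ (1 + ε) := mul_nonneg hC₁ hNN
    nlinarith [hs1, hs2, hs3, hs4, h5]

end Vale.Agent.P054.L2
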