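import Vale.Agent.P054.L2.Defs

/-! Block L2, leaf WALLS, first part: lines through a point in the plane, planes in space. -/

set_option linter.all false
set_option autoImplicit false

namespace Vale.Agent.P054.L2

open Finset MvPolynomial

/-- restriction of a polynomial to a line: at most `d` zeros -/
theorem wallsa_card {n : ℕ} {α : Type*} (F : MvPolynomial (Fin n) ℝ) (d : ℕ)
    (hd : F.totalDegree ≤ d) (x0 u : Fin n → ℝ) (hx0 : eval x0 F ≠ 0) (L : Finset α) (s : α → ℝ)
    (hinj : ∀ a ∈ L, ∀ b ∈ L, a ≠ b → s a ≠ s b)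
    (hz : ∀ a ∈ L, eval (x0 + s a • u) F = 0) : L.card ≤ d := by
  classical
  let f : Fin n → Polynomial ℝ := fun i => Polynomial.C (x0 i) + Polynomial.C (u i) * Polynomial.X
  let g : Polynomial ℝ := aeval f F
  have hg : ∀ t : ℝ, g.eval t = eval (x0 + t • u) F := by
    intro t
    have h1 : g.eval t = Polynomial.eval t (eval₂ (algebraMap ℝ (Polynomial ℝ)) f F) := rfl
    have h2 : (Polynomial.evalRingHom t).comp (algebraMap ℝ (Polynomial ℝ)) = RingHom.id ℝ := by
      ext
      simp
    have h3 : (fun i => Polynomial.eval t (f i)) = x0 + t • u := by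
      funext i
      simp only [f, Polynomial.eval_add, Polynomial.eval_C, Polynomial.eval_mul, Polynomial.eval_X,
        Pi.add_apply, Pi.smul_apply, smul_eq_mul]
      ring
    rw [h1, polynomial_eval_eval₂, h2, h3]
    exact eval₂_id _
  have hg0 : g ≠ 0 := by
    intro h0
    have := hg 0
    rw [h0] at this
    simp at this
    exact hx0 this.symm
  have hdeg : g.natDegree ≤ d := by
    have h1 := aeval_natDegree_le F hd f (n := 1) fun i => by
      refine (Polynomial.natDegree_add_le _ _).trans ?_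
      refine max_le (by simp) ?_
      refine (Polynomial.natDegree_C_mul_le _ _).trans ?_
      exact Polynomial.natDegree_X_le
    simpa using h1
  have h1 : (L.image s).card = L.card := Finset.card_image_of_injOn fun a ha b hb hab => by
    by_contra hne
    exact hinj a ha b hb hne hab
  rw [← h1]
  have h2 : L.image s ⊆ g.roots.toFinset := by
    intro t ht
    obtain ⟨a, ha, rfl⟩ := Finset.mem_image.mp ht
    rw [Multiset.mem_toFinset, Polynomial.mem_roots hg0, Polynomial.IsRoot.def, hg]
    exact hz a ha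
  exact (Finset.card_le_card h2).trans ((Multiset.toFinset_card_le _).trans
    ((Polynomial.card_roots' g).trans hdeg))

/-- a common non-zero of finitely many nonzero linear forms -/
theorem wallsa_exists {n : ℕ} (S : Finset (Fin n → ℝ)) (hS : ∀ a ∈ S, a ≠ 0) :
    ∃ v : Fin n → ℝ, ∀ a ∈ S, ∑ k, a k * v k ≠ 0 := by
  classical
  let q : (Fin n → ℝ) → MvPolynomial (Fin n) ℝ := fun a => ∑ k, C (a k) * X k
  have hq : ∀ a v, eval v (q a) = ∑ k, a k * v k := by
    intro a v
    simp [q]
  have hq0 : ∀ a ∈ S, q a ≠ 0 := by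
    intro a ha h0
    apply hS a ha
    funext k
    have h1 := hq a (Pi.single k 1)
    rw [h0, map_zero] at h1
    rw [Finset.sum_eq_single k] at h1
    · simpa using h1.symm
    · intro b _ hb
      rw [Pi.single_eq_of_ne hb, mul_zero]
    · intro hk
      exact absurd (Finset.mem_univ k) hk
  have hprod : ∏ a ∈ S, q a ≠ 0 := Finset.prod_ne_zero_iff.mpr hq0
  have hex : ∃ v, eval v (∏ a ∈ S, q a) ≠ 0 := by
    by_contra hcon
    push Not at hcon
    exact hprod (MvPolynomial.funext fun v => by rw [hcon v, map_zero])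
  obtain ⟨v, hv⟩ := hex
  rw [map_prod, Finset.prod_ne_zero_iff] at hv
  exact ⟨v, fun a ha => by rw [← hq]; exact hv a ha⟩

theorem wallsa_nonzero {n : ℕ} (F : MvPolynomial (Fin n) ℝ) (hF : F ≠ 0) :
    ∃ x0, eval x0 F ≠ 0 := by
  by_contra hcon
  push Not at hcon
  exact hF (MvPolynomial.funext fun v => by rw [hcon v, map_zero])

/-- A nonzero polynomial of degree `≤ d` in the plane vanishes on at most `d` lines through `p`.
Proof: `x0` with `F x0 ≠ 0`; choose a direction `u` not proportional to any of the `d+1` directions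
nor to `p - x0`; the line `x0 + t u` meets the `d+1` lines in distinct points (two of the lines meet
only in `p`), so `F` restricted to it has `d+1` zeros and is nonzero at `t = 0`. -/
theorem lines_through_2d (F : MvPolynomial (Fin 2) ℝ) (hF : F ≠ 0) (d : ℕ)
    (hd : F.totalDegree ≤ d) (p : Fin 2 → ℝ) (L : Finset (Fin 2 → ℝ))
    (h0 : ∀ w ∈ L, w ≠ 0)
    (hpar : ∀ w ∈ L, ∀ w' ∈ L, w ≠ w' → w 0 * w' 1 - w 1 * w' 0 ≠ 0)
    (hz : ∀ w ∈ L, ∀ t : ℝ, eval (p + t • w) F = 0) : L.card ≤ d := by
  classical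
  rcases L.eq_empty_or_nonempty with rfl | ⟨w0, hw0⟩
  · simp
  obtain ⟨x0, hx0⟩ := wallsa_nonzero F hF
  have hp : p ≠ x0 := by
    rintro rfl
    apply hx0
    have := hz w0 hw0 0
    rwa [zero_smul, add_zero] at this
  obtain ⟨u, hu⟩ := wallsa_exists
    (insert (![p 1 - x0 1, -(p 0 - x0 0)] : Fin 2 → ℝ) (L.image fun w => ![w 1, -w 0])) (by
      intro a ha
      rw [Finset.mem_insert, Finset.mem_image] at ha
      rcases ha with rfl | ⟨w, hw, rfl⟩
      · intro h1
        apply hp
        have e0 := congrFun h1 0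
        have e1 := congrFun h1 1
        simp at e0 e1
        funext i
        fin_cases i
        · show p 0 = x0 0
          linarith
        · show p 1 = x0 1
          linarith
      · intro h1
        apply h0 w hw
        have e0 := congrFun h1 0
        have e1 := congrFun h1 1
        simp at e0 e1
        funext i
        fin_cases i
        · exact e1
        · exact e0)
  have hu1 : ∀ w ∈ L, u 0 * w 1 - u 1 * w 0 ≠ 0 := by
    intro w hw h1
    have h2 := hu ![w 1, -w 0] (Finset.mem_insert_of_mem (Finset.mem_image_of_mem _ hw))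
    apply h2
    rw [Fin.sum_univ_two]
    simp
    linarith
  have hu2 : u 0 * (p 1 - x0 1) - u 1 * (p 0 - x0 0) ≠ 0 := by
    intro h1
    have h2 := hu _ (Finset.mem_insert_self _ _)
    apply h2
    rw [Fin.sum_univ_two]
    simp
    linarith
  -- parameters of the intersection points
  let s : (Fin 2 → ℝ) → ℝ := fun w =>
    ((p 0 - x0 0) * w 1 - (p 1 - x0 1) * w 0) / (u 0 * w 1 - u 1 * w 0)
  let t : (Fin 2 → ℝ) → ℝ := fun w =>
    ((p 0 - x0 0) * u 1 - (p 1 - x0 1) * u 0) / (u 0 * w 1 - u 1 * w 0)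
  have hst : ∀ w ∈ L, x0 + s w • u = p + t w • w := by
    intro w hw
    have h1 := hu1 w hw
    have hs : s w * (u 0 * w 1 - u 1 * w 0) =
        (p 0 - x0 0) * w 1 - (p 1 - x0 1) * w 0 := div_mul_cancel₀ _ h1
    have ht : t w * (u 0 * w 1 - u 1 * w 0) =
        (p 0 - x0 0) * u 1 - (p 1 - x0 1) * u 0 := div_mul_cancel₀ _ h1
    funext i
    fin_cases i
    · show x0 0 + s w * u 0 = p 0 + t w * w 0
      refine mul_right_cancel₀ h1 ?_
      linear_combination u 0 * hs - w 0 * ht
    · show x0 1 + s w * u 1 = p 1 + t w * w 1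
      refine mul_right_cancel₀ h1 ?_
      linear_combination u 1 * hs - w 1 * ht
  refine wallsa_card F d hd x0 u hx0 L s (fun w hw w' hw' hne he => ?_) fun w hw => ?_
  · have e1 := hst w hw
    have e2 := hst w' hw'
    rw [← he, e1] at e2
    have a0 := congrFun e2 0
    have a1 := congrFun e2 1
    simp only [Pi.add_apply, Pi.smul_apply, smul_eq_mul] at a0 a1
    have h3 := hpar w hw w' hw' hne
    have h4 : t w * (w 0 * w' 1 - w 1 * w' 0) = 0 := by linear_combination w' 1 * a0 - w' 0 * a1
    have h5 : t w = 0 := by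
      rcases mul_eq_zero.mp h4 with h | h
      · exact h
      · exact absurd h h3
    apply hu2
    have h6 : t w * (u 0 * w 1 - u 1 * w 0) = (p 0 - x0 0) * u 1 - (p 1 - x0 1) * u 0 := by
      simp only [t]
      rw [div_mul_cancel₀ _ (hu1 w hw)]
    rw [h5, zero_mul] at h6
    linarith
  · rw [hst w hw]
    exact hz w hw _

/-- A nonzero polynomial of degree `≤ d` in space vanishes on at most `d` planes.
Proof: `x0` with `F x0 ≠ 0`; planes `n_i x = c_i`, `c_i' = c_i - n_i x0 ≠ 0`; choose `v` with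
`n_i v ≠ 0` and `c_i' (n_j v) ≠ c_j' (n_i v)` (`c_i' n_j - c_j' n_i ≠ 0` for different planes; finitely
many nonzero linear forms have a common non-zero); `F (x0 + t v)` has the distinct zeros
`c_i'/(n_i v)`. -/
theorem planes_count (F : MvPolynomial (Fin 3) ℝ) (hF : F ≠ 0) (d : ℕ)
    (hd : F.totalDegree ≤ d) (P : Finset (Set V3))
    (hP : ∀ Q ∈ P, ∃ (n : V3) (c : ℝ), n ≠ 0 ∧ Q = {x | ∑ k, n k * x k = c} ∧
      ∀ x ∈ Q, eval x F = 0) : P.card ≤ d := by
  classical
  obtain ⟨x0, hx0⟩ := wallsa_nonzero F hF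
  choose! n c hn hQ hz using hP
  let c' : Set V3 → ℝ := fun Q => c Q - ∑ k, n Q k * x0 k
  have hc' : ∀ Q ∈ P, c' Q ≠ 0 := by
    intro Q hQP h1
    apply hx0
    apply hz Q hQP
    have : x0 ∈ {x | ∑ k, n Q k * x k = c Q} := by
      show ∑ k, n Q k * x0 k = c Q
      simp only [c'] at h1
      linarith
    rwa [← hQ Q hQP] at this
  have hmem : ∀ Q ∈ P, ∀ x : V3, x ∈ Q ↔ ∑ k, n Q k * (x k - x0 k) = c' Q := by
    intro Q hQP x
    have h1 : x ∈ Q ↔ ∑ k, n Q k * x k = c Q := by
      conv_lhs => rw [hQ Q hQP]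
      rfl
    rw [h1]
    simp only [c', mul_sub, Finset.sum_sub_distrib]
    constructor <;> intro h2 <;> linarith
  obtain ⟨v, hv⟩ := wallsa_exists
    ((P.image n) ∪ ((P ×ˢ P).filter fun q => q.1 ≠ q.2).image
      (fun q => (fun k => c' q.1 * n q.2 k - c' q.2 * n q.1 k : Fin 3 → ℝ))) (by
      intro a ha
      rw [Finset.mem_union, Finset.mem_image, Finset.mem_image] at ha
      rcases ha with ⟨Q, hQP, rfl⟩ | ⟨⟨Q, Q'⟩, hq, rfl⟩
      · exact hn Q hQP
      · rw [Finset.mem_filter, Finset.mem_product] at hq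
        obtain ⟨⟨h1, h2⟩, h3⟩ := hq
        intro h4
        apply h3
        have h5 : ∀ k, c' Q * n Q' k = c' Q' * n Q k := fun k => by
          have := congrFun h4 k
          simp only [Pi.zero_apply] at this
          linarith
        ext x
        have e1 : c' Q * ∑ k, n Q' k * (x k - x0 k) = c' Q' * ∑ k, n Q k * (x k - x0 k) := by
          rw [Finset.mul_sum, Finset.mul_sum]
          exact Finset.sum_congr rfl fun k _ => by linear_combination (x k - x0 k) * h5 k
        rw [hmem Q h1 x, hmem Q' h2 x]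
        constructor
        · intro h6
          rw [h6] at e1
          have : c' Q * (∑ k, n Q' k * (x k - x0 k)) = c' Q * c' Q' := by rw [e1]; ring
          exact mul_left_cancel₀ (hc' Q h1) this
        · intro h6
          rw [h6] at e1
          have : c' Q' * (∑ k, n Q k * (x k - x0 k)) = c' Q' * c' Q := by rw [← e1]; ring
          exact mul_left_cancel₀ (hc' Q' h2) this)
  have hv1 : ∀ Q ∈ P, ∑ k, n Q k * v k ≠ 0 := fun Q hQP =>
    hv _ (Finset.mem_union_left _ (Finset.mem_image_of_mem _ hQP))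
  have hv2 : ∀ Q ∈ P, ∀ Q' ∈ P, Q ≠ Q' →
      c' Q * ∑ k, n Q' k * v k ≠ c' Q' * ∑ k, n Q k * v k := by
    intro Q h1 Q' h2 hne he
    have h3 := hv (fun k => c' Q * n Q' k - c' Q' * n Q k)
      (Finset.mem_union_right _ (Finset.mem_image.mpr ⟨(Q, Q'),
        Finset.mem_filter.mpr ⟨Finset.mem_product.mpr ⟨h1, h2⟩, hne⟩, rfl⟩))
    apply h3
    have : ∑ k, (c' Q * n Q' k - c' Q' * n Q k) * v k =
        c' Q * (∑ k, n Q' k * v k) - c' Q' * ∑ k, n Q k * v k := by
      rw [Finset.mul_sum, Finset.mul_sum, ← Finset.sum_sub_distrib]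
      exact Finset.sum_congr rfl fun k _ => by ring
    rw [this, he, sub_self]
  refine wallsa_card F d hd x0 v hx0 P (fun Q => c' Q / ∑ k, n Q k * v k)
    (fun Q h1 Q' h2 hne he => ?_) fun Q h1 => ?_
  · rw [div_eq_div_iff (hv1 Q h1) (hv1 Q' h2)] at he
    exact hv2 Q h1 Q' h2 hne he
  · apply hz Q h1
    rw [hmem Q h1]
    have : ∑ k, n Q k * ((x0 + (c' Q / ∑ k, n Q k * v k) • v) k - x0 k) =
        (c' Q / ∑ k, n Q k * v k) * ∑ k, n Q k * v k := by
      rw [Finset.mul_sum]
      exact Finset.sum_congr rfl fun k _ => by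
        simp only [Pi.add_apply, Pi.smul_apply, smul_eq_mul]
        ring
    rw [this, div_mul_cancel₀ _ (hv1 Q h1)]

end Vale.Agent.P054.L2
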